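import Crest.Agent.N337.TK.Bas

-- ▼ part N337/TK/Lift
section

/-!
# Row 337, TK: the product space (prior coins, block gases) and the block-revealing explorer
-/

set_option autoImplicit false
set_option linter.unusedSectionVars false

namespace Crest.Agent.N337.TK

open Finset Crest.Agent.N337.Rep Crest.Agent.N337.LY0 Crest.Agent.N337.Op Crest.Agent.N337.Gas

lemma meas_of_supp {ι : Type} [Fintype ι] [DecidableEq ι] {E : ι → Type} [∀ i, Fintype (E i)]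
    {R : (∀ i, E i) → Finset ι} (hR : PH.Stop R) {f : (∀ i, E i) → ℝ}
    (h : ∀ ω ω', (∀ i ∈ R ω, ω' i = ω i) → f ω ≠ 0 → f ω' = f ω) : PH.Meas R f := by
  intro ω ω' e
  by_cases h1 : f ω = 0
  · by_cases h2 : f ω' = 0
    · exact h2.trans h1.symm
    · exact (h ω' ω (fun i hi => (e i (hR ω ω' e ▸ hi)).symm) h2).symm
  · exact h ω ω' e h1

/-- cells: prior coins and block configurations. -/
@[reducible] def Cell (T : ℕ) (Λ ι : Type) : Fin T ⊕ ι → Type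
  | Sum.inl _ => Bool
  | Sum.inr _ => Finset (Lp T Λ)

variable {Λ : Type} [Fintype Λ] [DecidableEq Λ] {T : ℕ} [NeZero T] {ι : Type} [Fintype ι]
  [DecidableEq ι]

instance (i : Fin T ⊕ ι) : Fintype (Cell T Λ ι i) :=
  match i with
  | Sum.inl _ => inferInstanceAs (Fintype Bool)
  | Sum.inr _ => inferInstanceAs (Fintype (Finset (Lp T Λ)))

def jn (ξ : Fin T → Bool) (ω : ι → Finset (Lp T Λ)) : ∀ i, Cell T Λ ι i
  | Sum.inl s => ξ s
  | Sum.inr i => ω i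

def law (p : Fin T → ℝ) (ν : ι → Finset (Lp T Λ) → ℝ) : ∀ i, Cell T Λ ι i → ℝ
  | Sum.inl s => Arc.pb p s
  | Sum.inr i => ν i

def co (η : ∀ i, Cell T Λ ι i) : Fin T → Bool := fun s => η (Sum.inl s)
def bl (η : ∀ i, Cell T Λ ι i) : ι → Finset (Lp T Λ) := fun i => η (Sum.inr i)

variable {p : Fin T → ℝ} {ν : ι → Finset (Lp T Λ) → ℝ}

lemma pr_law (hp : ∀ s, 0 ≤ p s ∧ p s ≤ 1) (hν : ∀ i, Op.Pr (ν i)) : PH.Pr (law p ν) :=
  ⟨fun i => match i with
    | Sum.inl s => (Arc.pr_pb hp).nn s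
    | Sum.inr i => (hν i).nn, fun i => match i with
    | Sum.inl s => (Arc.pr_pb hp).one s
    | Sum.inr i => (hν i).one⟩

lemma ex_law (F : (Fin T → Bool) → (ι → Finset (Lp T Λ)) → ℝ) :
    PH.ex (law p ν) (fun η => F (co η) (bl η)) =
      Op.ex (pm ν) fun ω => Op.ex (Pw p) fun ξ => F ξ ω := by
  simp only [Op.ex, mul_sum]
  rw [← sum_product', univ_product_univ, PH.ex]
  refine Fintype.sum_bijective (fun η => (bl η, co η)) ⟨fun η η' h => ?_, fun z =>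
    ⟨jn z.2 z.1, rfl⟩⟩ _ _ fun η => ?_
  · funext i
    rcases i with s | i
    exacts [congrFun (congrArg Prod.snd h) s, congrFun (congrArg Prod.fst h) i]
  · rw [PH.w, Fintype.prod_sum_type, mul_comm (∏ s, _), mul_assoc]; rfl

variable (ex ey : Fin T → Λ) (B Bp : ι → Finset Λ)

/-- well formed polymers. -/
def Wf (g : Lp T Λ) : Prop := ∀ s, g.1 s = true → tch ex ey g.2 s

open Classical in
/-- the down loops. -/
noncomputable def W (ω : ι → Finset (Lp T Λ)) : Finset (Lp T Λ) :=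
  un fun i => (ω i).filter fun g => In (B i) g ∧ Wf ex ey g

/-- the coins touching `w` are forced. -/
noncomputable def frc (w : Finset (Lp T Λ)) (ξ : Fin T → Bool) : Fin T → Bool :=
  PH.pw (E := fun _ : Fin T => Bool) (Arc.tch ex ey (pts w)) (cn w) ξ

/-- the true coins. -/
noncomputable def Xi (η : ∀ i, Cell T Λ ι i) : Fin T → Bool := frc ex ey (W ex ey B (bl η)) (co η)

open Classical in
/-- the block-revealing explorer. -/
noncomputable def Y (ok : (ℕ → Fin T × Λ) → ℕ → Prop) (r : Λ) (t : ℕ) (η : ∀ i, Cell T Λ ι i) :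
    Finset (Fin T ⊕ ι) := (Arc.X ex ey ok (0, r) t (Xi ex ey B η)).disjSum
  (univ.filter fun i => ∃ v ∈ Arc.Al ex ey ok (0, r) t (Xi ex ey B η), v.2 ∈ Bp i)

/-- groups. -/
def grp (T : ℕ) (ι : Type) : Fin T ⊕ ι → Option ι := Sum.elim (fun _ => none) some

variable {ex ey B Bp}

lemma mem_W {ω : ι → Finset (Lp T Λ)} {g : Lp T Λ} :
    g ∈ W ex ey B ω ↔ ∃ i, g ∈ ω i ∧ In (B i) g ∧ Wf ex ey g := by simp [W, un]

lemma ex_frc (w : Finset (Lp T Λ)) (f : (Fin T → Bool) → ℝ) :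
    Op.ex (Pw p) (fun ξ => f (frc ex ey w ξ)) = Op.ex (Pw (pin ex ey p w)) f := by
  have e : pin ex ey p w = Arc.pin p (Arc.tch ex ey (pts w)) (cn w) := by
    funext s; simp only [pin, Arc.pin, Arc.mem_tch]; rfl
  rw [e]; exact Arc.C_pin _ f _

lemma ex_Xi (F : Finset (Lp T Λ) → (Fin T → Bool) → ℝ) :
    PH.ex (law p ν) (fun η => F (W ex ey B (bl η)) (Xi ex ey B η)) =
      Op.ex (pm ν) fun ω => Op.ex (Pw (pin ex ey p (W ex ey B ω))) (F (W ex ey B ω)) := by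
  refine (ex_law fun ξ ω => F (W ex ey B ω) (frc ex ey (W ex ey B ω) ξ)).trans ?_
  simp only [ex_frc]

variable {ok : (ℕ → Fin T × Λ) → ℕ → Prop} {r : Λ} {t : ℕ} {η η' : ∀ i, Cell T Λ ι i}

lemma inl_Y {s : Fin T} :
    Sum.inl s ∈ Y ex ey B Bp ok r t η ↔ s ∈ Arc.X ex ey ok (0, r) t (Xi ex ey B η) :=
  inl_mem_disjSum

lemma inr_Y {i : ι} : Sum.inr i ∈ Y ex ey B Bp ok r t η ↔
    ∃ v ∈ Arc.Al ex ey ok (0, r) t (Xi ex ey B η), v.2 ∈ Bp i := by
  rw [Y, inr_mem_disjSum, mem_filter]; simp only [mem_univ, true_and]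

lemma Xi_loc (hst : ∀ i s, ex s ∈ B i ∨ ey s ∈ B i → ex s ∈ Bp i ∧ ey s ∈ Bp i)
    (h : ∀ i ∈ Y ex ey B Bp ok r t η, η' i = η i) :
    ∀ s ∈ Arc.X ex ey ok (0, r) t (Xi ex ey B η), Xi ex ey B η' s = Xi ex ey B η s := by
  intro s hs
  have k : ∀ g, tch ex ey g.2 s → (g ∈ W ex ey B (bl η') ↔ g ∈ W ex ey B (bl η)) := fun g hg => by
    rw [mem_W, mem_W]
    refine exists_congr fun i => and_congr_left fun hi => ?_
    have := hst i s (hg.imp (hi.1.2 _) (hi.1.2 _))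
    rw [show bl η' i = bl η i from h (Sum.inr i) (inr_Y.2 (((Arc.mem_tch ex ey).1 hs).elim
      (fun a => ⟨_, a, this.1⟩) fun a => ⟨_, a, this.2⟩))]
  have k1 : s ∈ Arc.tch ex ey (pts (W ex ey B (bl η'))) ↔
      s ∈ Arc.tch ex ey (pts (W ex ey B (bl η))) := by
    rw [Arc.mem_tch, Arc.mem_tch]
    exact tch_pts.trans ((exists_congr fun g => and_congr_left (k g)).trans tch_pts.symm)
  have k2 : cn (W ex ey B (bl η')) s = cn (W ex ey B (bl η)) s := by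
    refine decide_eq_decide.2 ⟨fun ⟨g, a, b⟩ => ⟨g, (k g ?_).1 a, b⟩, fun ⟨g, a, b⟩ =>
      ⟨g, (k g ?_).2 a, b⟩⟩
    all_goals obtain ⟨_, -, -, c⟩ := mem_W.1 a; exact c s b
  simp only [Xi, frc, PH.pw, k1, k2]
  rw [show co η' s = co η s from h (Sum.inl s) (inl_Y.2 hs)]

lemma expl_Y (hr : Arc.Rule ok)
    (hst : ∀ i s, ex s ∈ B i ∨ ey s ∈ B i → ex s ∈ Bp i ∧ ey s ∈ Bp i) (r : Λ) :
    PH.Expl (Y ex ey B Bp ok r) := by
  refine ⟨fun _ _ => by simp only [Y, Arc.X_zero, Arc.Al_zero], fun t η i hi => ?_,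
    fun t η η' h => by simp only [Y, Arc.X, Arc.Al_pred hr (Xi_loc hst h)]⟩
  rcases i with s | i
  · exact inl_Y.2 ((Arc.expl hr).mono t _ (inl_Y.1 hi))
  · obtain ⟨v, h1, h2⟩ := inr_Y.1 hi
    exact inr_Y.2 ⟨v, Arc.Al_mono t.le_succ _ h1, h2⟩

lemma Y_zero (η : ∀ i, Cell T Λ ι i) : Y ex ey B Bp ok r 0 η = ∅ := by
  simp [Y, Arc.X_zero, Arc.Al_zero]

lemma mem_mt_grp {A : Finset (Fin T ⊕ ι)} {γ : Option ι} :
    γ ∈ PH.mt (grp T ι) (univ.image some) A ↔ ∃ i, Sum.inr i ∈ A ∧ some i = γ := by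
  rw [PH.mem_mt]
  constructor
  · rintro ⟨⟨j | j, h1, rfl⟩, h2⟩
    · simp [grp] at h2
    · exact ⟨j, h1, rfl⟩
  · rintro ⟨i, h1, rfl⟩
    exact ⟨⟨_, h1, rfl⟩, by simp⟩

lemma cl_grp (A : Finset (Fin T ⊕ ι)) : PH.Cl (grp T ι) (univ.image some) A := by
  rintro (i | i) hi hG (j | j) e <;> simp_all [grp]

/-- given all blocks, the conditional law is that of the pinned product model. -/
lemma P_Y (hν : ∀ i, Op.Pr (ν i)) (F : Finset (Lp T Λ) → (Fin T → Bool) → ℝ) :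
    PH.P (law p ν) (fun η => Y ex ey B Bp ok r t η ∪ PH.pre (grp T ι) (univ.image some))
      (fun η => F (W ex ey B (bl η)) (Xi ex ey B η)) η =
    PH.P (Arc.pb (pin ex ey p (W ex ey B (bl η)))) (Arc.X ex ey ok (0, r) t)
      (F (W ex ey B (bl η))) (Xi ex ey B η) := by
  set A := Y ex ey B Bp ok r t η ∪ PH.pre (grp T ι) (univ.image some) with hA
  have e1 : ∀ η', bl (PH.pw A η η') = bl η := fun η' => funext fun i =>
    PH.pw_mem _ _ (mem_union_right _ (by simp [grp]))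
  have e2 : ∀ η', Xi ex ey B (PH.pw A η η') = PH.pw (E := fun _ : Fin T => Bool)
      (Arc.X ex ey ok (0, r) t (Xi ex ey B η)) (Xi ex ey B η)
      (frc ex ey (W ex ey B (bl η)) (co η')) := fun η' => by
    funext s
    have : Sum.inl s ∈ A ↔ s ∈ Arc.X ex ey ok (0, r) t (Xi ex ey B η) := by
      rw [hA, mem_union, inl_Y]; simp [grp]
    rw [Xi, e1]
    simp only [frc, PH.pw, co, this]
    split_ifs <;> simp only [Xi, frc, PH.pw, co, *, if_true, if_false]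
  have k := ex_law (p := p) (ν := ν) fun ξ _ => F (W ex ey B (bl η)) (PH.pw
    (E := fun _ : Fin T => Bool) (Arc.X ex ey ok (0, r) t (Xi ex ey B η)) (Xi ex ey B η)
    (frc ex ey (W ex ey B (bl η)) ξ))
  rw [Op.ex, ← sum_mul, (pr_pm hν).one, one_mul, ex_frc (W ex ey B (bl η)) fun ξ => F (W ex ey B (bl η)) (PH.pw
    (E := fun _ : Fin T => Bool) (Arc.X ex ey ok (0, r) t (Xi ex ey B η)) (Xi ex ey B η) ξ)] at k
  refine Eq.trans ?_ k
  simp only [PH.P, PH.ex, ← hA, e1, e2]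

/-- the class of a configuration. -/
lemma cls (hr : Arc.Rule ok) {u : Fin T × Λ} {ξ ξ' : Fin T → Bool}
    (h : ∀ s ∈ Arc.X ex ey ok u t ξ, ξ' s = ξ s) :
    ((∀ j < t, ok (Arc.arc ex ey u ξ') j) ↔ ∀ j < t, ok (Arc.arc ex ey u ξ) j) ∧
    ((∀ j < t, ok (Arc.arc ex ey u ξ) j) → ∀ j ≤ t, Arc.arc ex ey u ξ' j = Arc.arc ex ey u ξ j) := by
  refine ⟨?_, fun k j hj => Arc.agree h j hj fun l hl => k l (by omega)⟩
  cases t with
  | zero => simp
  | succ t =>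
    simp only [Nat.lt_succ_iff]
    exact Arc.run_iff hr h (by omega)

variable {ws : Fin T → Fin T} {near : Λ → Λ → Prop}

open Classical in
/-- multiplicity of a set of slots. -/
lemma mult_pt (hws : ∀ s, ws s ≤ s) {Bn n1 : ℕ} (hB : (univ.image ws).card ≤ Bn) (S : Finset Λ)
    (hS : (univ.filter fun y => ∃ x ∈ S, near y x).card ≤ n1) (K : ℕ) (ξ : Fin T → Bool) :
    (univ.filter fun r : Λ => ∃ v ∈ Arc.Al ex ey (Arc.spd ws near) (0, r) (K * T) ξ, v.2 ∈ S).card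
      ≤ K * (Bn * n1) := by
  have sub : (univ.filter fun r : Λ =>
      ∃ v ∈ Arc.Al ex ey (Arc.spd ws near) (0, r) (K * T) ξ, v.2 ∈ S) ⊆
      (range K ×ˢ (univ.image ws ×ˢ univ.filter fun y => ∃ x ∈ S, near y x)).image
        fun z => ((Sg ex ey ξ).symm^[z.1 * T + z.2.1.val] z.2).2 := by
    intro r hr
    obtain ⟨⟨s, x⟩, hx, hS⟩ := (mem_filter.1 hr).2
    obtain ⟨i, hi, hr, e⟩ := Arc.mem_Al.1 hx
    have h1 := hr i le_rfl
    have h2 := Arc.arc_time ex ey (0, r) ξ i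
    simp only [Arc.spd, e] at h1
    simp only [e, Fin.val_zero, zero_add] at h2
    have h3 : (ws s).val ≤ s.val := hws s
    have h4 := Nat.div_add_mod i T
    have h5 : i - (s.val - (ws s).val) = i / T * T + (ws s).val := by
      rw [mul_comm]; omega
    rw [h5] at h1
    have h6 : Arc.arc ex ey (0, r) ξ (i / T * T + (ws s).val) =
        (ws s, (Arc.arc ex ey (0, r) ξ (i / T * T + (ws s).val)).2) := by
      refine Prod.ext (Fin.ext ?_) rfl
      rw [Arc.arc_time]; simp [Nat.mod_eq_of_lt (ws s).2]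
    refine mem_image.2 ⟨(i / T, (ws s, _)), mem_product.2 ⟨mem_range.2 (Nat.div_lt_of_lt_mul
      (by rwa [mul_comm])), mem_product.2 ⟨mem_image_of_mem _ (mem_univ s),
        mem_filter.2 ⟨mem_univ _, x, hS, h1⟩⟩⟩, ?_⟩
    simp only
    rw [← h6, Arc.arc, Function.LeftInverse.iterate (Sg ex ey ξ).symm_apply_apply _ _]
  refine (card_le_card sub).trans (card_image_le.trans ?_)
  rw [card_product, card_product, card_range]
  gcongr

end Crest.Agent.N337.TK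
end

-- ▼ part N337/TK/Blk

/-!
# Row 337, TK: the block terms (instance of the Zeno-Shearer lemma), one class of windings
-/

set_option autoImplicit false
set_option linter.unusedSectionVars false

namespace Crest.Agent.N337.TK

open Finset Crest.Agent.N337.Rep Crest.Agent.N337.LY0 Crest.Agent.N337.Op Crest.Agent.N337.Gas

variable {Λ : Type} [Fintype Λ] [DecidableEq Λ] {T : ℕ} [NeZero T] {ex ey : Fin T → Λ}
  {p : Fin T → ℝ} {v c : Lp T Λ → ℝ} {ws : Fin T → Fin T} {near : Λ → Λ → Prop}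
  {Z : Λ → Finset Λ} {ι : Type} [Fintype ι] [DecidableEq ι] {B Bp : ι → Finset Λ}

lemma wind_eq_wd (ξ : Fin T → Bool) (u : Fin T × Λ) : A.wind ex ey ξ u = wd (lp ex ey ξ u) :=
  Arc.wind_eq ξ u

lemma lf_lp (c : Lp T Λ → ℝ) : Arc.LF ex ey fun ξ u => c (lp ex ey ξ u) :=
  ⟨fun ξ u => by rw [lp_eq_iff.2 (o_apply _ u)],
    fun ξ ξ' u h => by rw [lp_congr fun s hs => h s ((Arc.mem_tch ex ey).2 hs)]⟩

lemma Ph_eq_Phi (c : Lp T Λ → ℝ) (ξ : Fin T → Bool) :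
    Ph ex ey c ξ = Arc.Phi ex ey (fun ξ u => c (lp ex ey ξ u)) ξ := sum_L ξ c

/-- loops are counted through their roots. -/
lemma Ph_root (c : Lp T Λ → ℝ) (ξ : Fin T → Bool) :
    Ph ex ey c ξ = ∑ r, c (lp ex ey ξ (0, r)) / wd (lp ex ey ξ (0, r)) := by
  rw [Ph_eq_Phi, Arc.Phi_eq (lf_lp c)]
  simp only [Arc.psi, wind_eq_wd]

lemma ex_W (hp : ∀ s, 0 ≤ p s ∧ p s ≤ 1) (hB : Apart ex ey B)
    (hs : ∀ g, qq ex ey p {g} ≠ 0 → v g ≠ 0 → ∃ i, In (B i) g) (H : Finset (Lp T Λ) → ℝ) :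
    Op.ex (pm fun i => nu (qq ex ey p) (on (In (B i)) (off (fun g => qq ex ey p {g} = 0) v)))
      (fun ω => H (W ex ey B ω)) = Op.ex (nu (qq ex ey p) v) H := by
  rw [nu_congr (u := v) (u' := off (fun g => qq ex ey p {g} = 0) v) (cpt_qq hp)
    fun g h => (if_neg h).symm, ex_prod (B := fun i => In (B i)) hB.uniq
    (fun g h => by
      unfold off at h; split_ifs at h with k
      exacts [absurd rfl h, hs g k h]) (hB.qq_prod hp)]
  classical
  refine ex_congr fun ω h => ?_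
  rw [W]
  congr 2; funext i
  refine filter_true_of_mem fun g hg => ?_
  have k := nu_supp (prod_ne_zero_iff.1 h i (mem_univ i))
  obtain ⟨ξ, -, hξ⟩ := qq_supp k.1
  refine ⟨by by_contra z; exact k.2 g hg (if_neg z), fun s a => ?_⟩
  rw [L_fst (hξ hg)] at a
  by_contra z; simp [z] at a

open Classical in
/-- **one class of windings.** -/
theorem blk1 (hp : ∀ s, 0 ≤ p s ∧ p s ≤ 1) (hv : ∀ g, 0 ≤ v g) (hB : Apart ex ey B)
    (hs : ∀ g, qq ex ey p {g} ≠ 0 → v g ≠ 0 → ∃ i, In (B i) g) (hBp : ∀ i, B i ⊆ Bp i)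
    (hst : ∀ i s, ex s ∈ B i ∨ ey s ∈ B i → ex s ∈ Bp i ∧ ey s ∈ Bp i) {N n1 n2 Bn K K' : ℕ}
    (hN : Fintype.card ι ≤ N) (h1 : ∀ i, (univ.filter fun y => ∃ x ∈ Bp i, near y x).card ≤ n1)
    (h2 : ∀ i, (univ.filter fun r => ∃ x ∈ Bp i, x ∈ Z r).card ≤ n2) (hws : ∀ s, ws s ≤ s)
    (hBn : (univ.image ws).card ≤ Bn) {q : ℝ} (q0 : 0 < q) (hK : 0 < K)
    (hc : ∀ g, c g ≠ 0 → Slw ex ey (Arc.spd ws near) g ∧ K ≤ wd g ∧ wd g ≤ K')
    (Gc : Finset (Lp T Λ) → Lp T Λ → Prop) (hit : ∀ w, nu (qq ex ey p) v w ≠ 0 →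
      Hit ex ey (Arc.spd ws near) Z (pin ex ey p w) (Gc w) q) :
    var (nu (qq ex ey p) v) (U ex ey p c) ≤ 24 * (Nat.log 2 N + 1) *
      ((64 * q * (K' * (Bn * n1) : ℕ) + n2) *
        (Op.ex (nu (qq ex ey p) v) (U ex ey p fun g => c g ^ 2) / K) + (K' * (Bn * n1) : ℕ) *
        (Op.ex (nu (qq ex ey p) v) (fun w => U ex ey p (fun g => c g ^ 2 * i1 (¬ Gc w g)) w) / K)) := by
  set ok := Arc.spd ws near with hok
  have hr : Arc.Rule ok := Arc.rule_spd ws near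
  set ν : ι → Finset (Lp T Λ) → ℝ := fun i =>
    nu (qq ex ey p) (on (In (B i)) (off (fun g => qq ex ey p {g} = 0) v)) with hν
  have pν : ∀ i, Op.Pr (ν i) := fun i => pr_nu (cpt_qq hp) (on_nn (off_nn hv))
  have pv := pr_nu (cpt_qq (ex := ex) (ey := ey) hp) hv
  have hP := pr_law hp pν
  have tr : ∀ F : Finset (Lp T Λ) → (Fin T → Bool) → ℝ,
      PH.ex (law p ν) (fun η => F (W ex ey B (bl η)) (Xi ex ey B η)) =
        Op.ex (nu (qq ex ey p) v) fun w => Op.ex (Pw (pin ex ey p w)) (F w) := fun F => by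
    rw [ex_Xi, ex_W hp hB hs fun w => Op.ex (Pw (pin ex ey p w)) (F w)]
  have tr0 : ∀ F : Finset (Lp T Λ) → ℝ, PH.ex (law p ν) (fun η => F (W ex ey B (bl η))) =
      Op.ex (nu (qq ex ey p) v) F := fun F => by
    rw [tr fun w _ => F w]; simp only [(pr_Pw (pin_mem hp _)).ex_const]
  set E : Λ → Finset (Lp T Λ) → (Fin T → Bool) → Prop := fun r w ξ => nu (qq ex ey p) v w ≠ 0 ∧
    Pw (pin ex ey p w) ξ ≠ 0 ∧ Gc w (lp ex ey ξ (0, r)) ∧ Slw ex ey ok (lp ex ey ξ (0, r)) with hE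
  set φ : Λ → Finset (Lp T Λ) → (Fin T → Bool) → ℝ := fun r w ξ =>
    off (· ∈ w) c (lp ex ey ξ (0, r)) / wd (lp ex ey ξ (0, r)) with hφ
  set θ : Λ → ℕ → (Fin T → Bool) → Prop := fun r t ξ => (∀ j < t, ok (Arc.arc ex ey (0, r) ξ) j) →
    (∀ j ≤ t, 1 ≤ j → Arc.arc ex ey (0, r) ξ j ≠ (0, r)) ∧ (Arc.arc ex ey (0, r) ξ t).2 ∉ Z r
    with hθ
  have θm : ∀ r t ξ ξ', (∀ s ∈ Arc.X ex ey ok (0, r) t ξ, ξ' s = ξ s) → (θ r t ξ' ↔ θ r t ξ) := by
    intro r t ξ ξ' h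
    obtain ⟨a, b⟩ := cls hr h
    simp only [θ, a]
    refine imp_congr_right fun k => ?_
    rw [b k t le_rfl]
    exact and_congr_left' (forall₂_congr fun j hj => by rw [b k j hj])
  have hq : ∀ r t w ξ, θ r t ξ → PH.P (Arc.pb (pin ex ey p w)) (Arc.X ex ey ok (0, r) (t + 1))
      (fun ζ => i1 (E r w ζ)) ξ ≤ q := by
    intro r t w ξ k
    have hp' := Arc.pr_pb (pin_mem (ex := ex) (ey := ey) hp w)
    have st := (Arc.expl (ex := ex) (ey := ey) (u := (0, r)) hr).stop (t + 1)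
    by_cases z : ∃ ζ, (∀ s ∈ Arc.X ex ey ok (0, r) (t + 1) ξ, ζ s = ξ s) ∧ E r w ζ
    · obtain ⟨ζ, a, b⟩ := z
      have k' := (θm r t ξ ζ fun s hs => a s ((Arc.expl hr).mono t ξ hs)).2 k
        fun j _ => b.2.2.2 ζ r rfl j
      have := hit w b.1 r ζ t b.2.1 b.2.2.1
        (not_le.1 fun l => k'.1 _ l (per_pos _ _) (it_per _ _)) k'.2
      rw [st.meas_P _ ξ ζ a] at this
      refine le_trans (hp'.P_mono (fun ζ => ?_) ξ) this
      by_cases y : E r w ζ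
      · rw [i1_pos y, i1_pos y.2.2.1]
      · rw [i1_neg y]; exact i1_nn _
    · refine le_trans (le_of_eq (sum_eq_zero fun ζ _ => ?_)) q0.le
      beta_reduce
      rw [i1_neg fun y => z ⟨_, fun s hs => PH.pw_mem _ _ hs, y⟩, mul_zero]
  have H : PH.ZS (law p ν) (grp T ι) (univ.image some) univ (fun _ => 1) (Y ex ey B Bp ok) (K' * T)
      (fun r η => i1 (E r (W ex ey B (bl η)) (Xi ex ey B η))) q (K' * (Bn * n1) : ℕ) n2 N := by
    refine ⟨fun r _ => expl_Y hr hst r, fun r _ => Y_zero, fun _ _ _ _ => cl_grp _,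
      fun _ _ => one_pos, fun _ _ _ => i1_nn _, fun _ _ _ => i1_le _, q0, Nat.cast_nonneg _,
      Nat.cast_nonneg _, fun η γ hγ => ?_, fun r _ η => ?_, fun r t η => θ r t (Xi ex ey B η),
      fun r _ => (univ.filter fun i => ∃ x ∈ Bp i, x ∈ Z r).image some,
      fun r _ t _ η η' h => θm r t _ _ (Xi_loc hst h), fun r _ t _ η k => ?_,
      fun r _ t _ η k γ hγ => ?_, fun η γ hγ => ?_⟩
    · obtain ⟨i, -, rfl⟩ := mem_image.1 hγ
      rw [sum_boole]
      refine Nat.cast_le.2 (le_trans (card_le_card fun r h => ?_)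
        (mult_pt (ex := ex) (ey := ey) hws hBn (Bp i) (h1 i) K' (Xi ex ey B η)))
      obtain ⟨j, a, b⟩ := mem_mt_grp.1 (mem_filter.1 h).2
      exact mem_filter.2 ⟨mem_univ _, inr_Y.1 (Option.some.inj b ▸ a)⟩
    · exact (card_le_card inter_subset_right).trans (card_image_le.trans hN)
    · have a : ∀ η', θ r t (Xi ex ey B η') → PH.P (law p ν) (fun η => Y ex ey B Bp ok r (t + 1) η ∪
          PH.pre (grp T ι) (univ.image some))
          (fun η => i1 (E r (W ex ey B (bl η)) (Xi ex ey B η))) η' ≤ q := fun η' k' => by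
        rw [P_Y pν fun w ζ => i1 (E r w ζ)]; exact hq r t _ _ k'
      have e := (expl_Y hr hst r).union (PH.pre (grp T ι) (univ.image some))
      exact ⟨(e.stop t).P_le hP (e.stop (t + 1)) (e.mono t) η fun η' b => a η' ((θm r t _ _
        (Xi_loc hst fun i hi => b i (mem_union_left _ hi))).2 k), a η k⟩
    · obtain ⟨i, a, rfl⟩ := mem_mt_grp.1 hγ
      obtain ⟨x, b1, b2⟩ := inr_Y.1 (mem_sdiff.1 a).1
      have b3 : x ∉ Arc.Al ex ey ok (0, r) t (Xi ex ey B η) := fun y =>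
        (mem_sdiff.1 a).2 (inr_Y.2 ⟨x, y, b2⟩)
      obtain ⟨l, l1, l2, rfl⟩ := Arc.mem_Al.1 b1
      obtain rfl : l = t := le_antisymm (Nat.lt_succ_iff.1 l1)
        (not_lt.1 fun y => b3 (Arc.mem_Al.2 ⟨l, y, l2, rfl⟩))
      refine mem_image_of_mem _ (mem_filter.2 ⟨mem_univ _, _, b2, ?_⟩)
      by_contra y
      refine k fun _ => ⟨fun j j1 j2 j3 => b3 (Arc.mem_Al.2 ⟨l - j, by omega,
        fun m hm => l2 m (by omega), ?_⟩), y⟩
      conv_rhs => rw [show l = j + (l - j) by omega, Arc.arc_add, j3]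
    · obtain ⟨i, -, rfl⟩ := mem_image.1 hγ
      rw [sum_boole]
      refine Nat.cast_le.2 (le_trans (card_le_card fun r h => ?_) (h2 i))
      obtain ⟨j, a, b⟩ := mem_image.1 (mem_filter.1 h).2
      exact mem_filter.2 ⟨mem_univ _, Option.some.inj b ▸ (mem_filter.1 a).2⟩
  have offc : ∀ (w : Finset (Lp T Λ)) g, off (· ∈ w) c g ≠ 0 → c g ≠ 0 := fun w g h z =>
    h (by simp [off, z])
  have φc : ∀ r w ξ, φ r w ξ ≠ 0 → c (lp ex ey ξ (0, r)) ≠ 0 := fun r w ξ h =>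
    offc w _ (div_ne_zero_iff.1 h).1
  have mφ : ∀ r ∈ (univ : Finset Λ), PH.Meas (Y ex ey B Bp ok r (K' * T))
      fun η => φ r (W ex ey B (bl η)) (Xi ex ey B η) := by
    refine fun r _ => meas_of_supp ((expl_Y hr hst r).stop _) fun η η' h z => ?_
    obtain ⟨a1, -, a3⟩ := hc _ (φc _ _ _ z)
    have sub := Arc.lo_sub_Al (ok := ok) ((wind_eq_wd _ _).trans_le a3) (a1 _ r rfl)
    have e1 : lp ex ey (Xi ex ey B η') (0, r) = lp ex ey (Xi ex ey B η) (0, r) :=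
      lp_congr fun s hs => Xi_loc hst h s (Arc.tch_mono ex ey sub ((Arc.mem_tch ex ey).2 hs))
    have e2 : lp ex ey (Xi ex ey B η) (0, r) ∈ W ex ey B (bl η') ↔
        lp ex ey (Xi ex ey B η) (0, r) ∈ W ex ey B (bl η) := by
      rw [mem_W, mem_W]
      refine exists_congr fun i => and_congr_left fun hi => ?_
      rw [show bl η' i = bl η i from h (Sum.inr i) (inr_Y.2 ⟨(0, r), sub (Arc.self_mem_lo _ _),
        hBp i (hi.1.2 _ (self_mem_obv _ _))⟩)]
    simp only [φ, e1, off, e2]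
  have k := H.zs hP mφ (h := fun η => U ex ey p c (W ex ey B (bl η))) fun η η' h => by
    beta_reduce
    rw [show bl η' = bl η from funext fun i => h (Sum.inr i) (by simp [grp])]
  have e1 : PH.var (law p ν) (fun η => U ex ey p c (W ex ey B (bl η))) =
      var (nu (qq ex ey p) v) (U ex ey p c) := by
    rw [PH.var, tr0, PH.nsq, tr0 fun w => (U ex ey p c w - _) ^ 2]; rfl
  have e2 : (∑ r, PH.ex (law p ν) fun η => φ r (W ex ey B (bl η)) (Xi ex ey B η) *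
      (U ex ey p c (W ex ey B (bl η)) - PH.ex (law p ν) fun η => U ex ey p c (W ex ey B (bl η)))) =
      var (nu (qq ex ey p) v) (U ex ey p c) := by
    rw [← PH.ex_sum, tr0, tr fun w ξ => ∑ r, φ r w ξ * (U ex ey p c w - _), pv.var_eq, nsq_eq_ex,
      sq (Op.ex _ _), ← ex_mul, ← ex_sub]
    congr 1; funext w
    simp only [φ, ← sum_mul, ← Ph_root, mul_comm (Ph ex ey _ _), ex_mul, ← U.eq_1]
    ring
  have bd : ∀ (ξ : Fin T → Bool) (w : Finset (Lp T Λ)) (f : Lp T Λ → ℝ), (∀ g, 0 ≤ f g) →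
      ∑ r, φ r w ξ ^ 2 * f (lp ex ey ξ (0, r)) ≤
        (K : ℝ)⁻¹ * Ph ex ey (off (· ∈ w) fun g => c g ^ 2 * f g) ξ := by
    intro ξ w f hf
    rw [Ph_root, mul_sum]
    refine sum_le_sum fun r _ => ?_
    simp only [φ]
    generalize lp ex ey ξ (0, r) = g
    by_cases z : off (· ∈ w) c g = 0
    · rw [z, zero_div, zero_pow two_ne_zero, zero_mul]
      have : 0 ≤ off (· ∈ w) (fun g => c g ^ 2 * f g) g :=
        off_nn (fun g => mul_nonneg (sq_nonneg _) (hf g)) g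
      positivity
    · have a : (K : ℝ) ≤ wd g := Nat.cast_le.2 (hc g (offc w g z)).2.1
      have a0 : (0 : ℝ) < K := Nat.cast_pos.2 hK
      have y : g ∉ w := fun y => z (if_pos y)
      simp only [off, y, if_false]
      have := mul_nonneg (sq_nonneg (c g)) (hf g)
      calc _ = (wd g : ℝ)⁻¹ * (c g ^ 2 * f g / wd g) := by ring
        _ ≤ _ := by gcongr
  have pw := fun w => pr_Pw (pin_mem (ex := ex) (ey := ey) hp w)
  have e3 : ∑ r, PH.nsq (law p ν) (fun η => φ r (W ex ey B (bl η)) (Xi ex ey B η)) / 1 ≤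
      Op.ex (nu (qq ex ey p) v) (U ex ey p fun g => c g ^ 2) / K := by
    simp only [div_one, PH.nsq]
    rw [← PH.ex_sum, tr fun w ξ => ∑ r, φ r w ξ ^ 2, div_eq_inv_mul, ← ex_mul]
    refine ex_mono pv.nn fun w => ?_
    rw [U, ← ex_mul]
    exact ex_mono (pw w).nn fun ξ => by simpa using bd ξ w (fun _ => 1) fun _ => zero_le_one
  have e4 : ∑ r, PH.nsq (law p ν) (fun η => φ r (W ex ey B (bl η)) (Xi ex ey B η) *
      (1 - i1 (E r (W ex ey B (bl η)) (Xi ex ey B η)))) / 1 ≤ Op.ex (nu (qq ex ey p) v)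
      (fun w => U ex ey p (fun g => c g ^ 2 * i1 (¬ Gc w g)) w) / K := by
    simp only [div_one, PH.nsq]
    rw [← PH.ex_sum, tr fun w ξ => ∑ r, (φ r w ξ * (1 - i1 (E r w ξ))) ^ 2, div_eq_inv_mul,
      ← ex_mul]
    refine ex_mono_ae pv.nn fun w hw => ?_
    rw [U, ← ex_mul]
    refine ex_mono_ae (pw w).nn fun ξ hξ => le_trans (sum_le_sum fun r _ => ?_)
      (bd ξ w (fun g => i1 (¬ Gc w g)) fun _ => i1_nn _)
    by_cases z : φ r w ξ = 0
    · simp [z]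
    · rw [← i1_not, mul_pow, i1_sq, i1_congr (not_congr ⟨fun y : E r w ξ => y.2.2.1, fun y =>
        ⟨hw, hξ, y, (hc _ (φc _ _ _ z)).1⟩⟩)]
  rw [e1, e2] at k
  have c0 := H.cost_nn hP (φ := fun r η => φ r (W ex ey B (bl η)) (Xi ex ey B η))
  refine (PH.le_of_sq_le_mul (by positivity) k).trans (mul_le_mul_of_nonneg_left ?_ (by positivity))
  exact add_le_add (mul_le_mul_of_nonneg_left e3 (by positivity))
    (mul_le_mul_of_nonneg_left e4 (by positivity))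

end Crest.Agent.N337.TK
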