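import Crest.Agent.N337.TK.Bas
import Crest.Agent.N337.TK.Blk
import Crest.Agent.N337.M.TkCfg

-- ▼ part N337/TK/Dp
section

/-!
# Row 337, TK: the birth-death form of `U p (a D)`
-/

set_option autoImplicit false
set_option linter.unusedSectionVars false

namespace Crest.Agent.N337.TK

open Finset Crest.Agent.N337.Rep Crest.Agent.N337.LY0 Crest.Agent.N337.Op Crest.Agent.N337.Gas

variable {Λ : Type} [Fintype Λ] [DecidableEq Λ] {T : ℕ} [NeZero T] {ex ey : Fin T → Λ}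
  {p : Fin T → ℝ} {u D a b c : Lp T Λ → ℝ} {w x A : Finset (Lp T Λ)} {g : Lp T Λ}

lemma nu_insert (hp : ∀ s, 0 ≤ p s ∧ p s ≤ 1) (hg : g ∉ A) :
    nu (qq ex ey p) u (insert g A) = nu (qq ex ey p) u A * (u g * Up ex ey p A g) := by
  by_cases h : qq ex ey p A = 0
  · have : qq ex ey p (insert g A) = 0 := le_antisymm
      (h ▸ (cpt_qq hp).anti _ _ (subset_insert g A)) ((cpt_qq hp).nn _)
    simp [Gas.nu, gw, h, this]
  · rw [Gas.nu, Gas.nu, gw_insert hg h, sh_qq h, Up, if_neg hg]; ring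

/-- GNZ for the loop gas. -/
lemma gnz_up (hp : ∀ s, 0 ≤ p s ∧ p s ≤ 1) (u : Lp T Λ → ℝ) (f : Finset (Lp T Λ) → Lp T Λ → ℝ) :
    Op.ex (nu (qq ex ey p) u) (fun A => ∑ g ∈ A, f (A.erase g) g) =
      Op.ex (nu (qq ex ey p) u) fun A => ∑ g, u g * Up ex ey p A g * f A g := by
  rw [Op.ex, gnz, Op.ex]
  refine sum_congr rfl fun A _ => ?_
  rw [← sum_add_sum_compl A, sum_eq_zero (s := A) fun g hg => by simp [Up, hg], zero_add, mul_sum]
  exact sum_congr rfl fun g hg => by rw [nu_insert hp (mem_compl.1 hg)]; ring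

lemma card_le_of_qq (h : qq ex ey p w ≠ 0) : w.card ≤ Fintype.card Λ := by
  obtain ⟨ξ, -, hξ⟩ := qq_supp h
  exact (card_le_card hξ).trans (card_L ξ)

lemma ex_Ph_mul (p : Fin T → ℝ) (b : Lp T Λ → ℝ) (G : (Fin T → Bool) → ℝ) :
    Op.ex (Pw p) (fun ξ => Ph ex ey b ξ * G ξ) =
      ∑ g, b g * ∑ ξ, (Pw p ξ * if {g} ⊆ L ex ey ξ then 1 else 0) * G ξ := by
  simp only [Op.ex, Ph, mul_sum, sum_mul, singleton_subset_iff]
  rw [sum_comm]
  refine sum_congr rfl fun ξ _ => ?_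
  rw [← sum_filter_add_sum_filter_not univ (· ∈ L ex ey ξ), filter_mem_eq_inter, univ_inter,
    sum_eq_zero (s := univ.filter _) fun g hg => by simp [(mem_filter.1 hg).2], add_zero]
  exact sum_congr rfl fun g hg => by rw [if_pos hg]; ring

/-- the response to the birth of `g`. -/
lemma resp (hp : ∀ s, 0 ≤ p s ∧ p s ≤ 1) (hw : qq ex ey p w ≠ 0) (hg : g ∉ w) (c : Lp T Λ → ℝ) :
    ∑ ξ, (Pw (pin ex ey p w) ξ * if {g} ⊆ L ex ey ξ then 1 else 0) * Ph ex ey (off (· ∈ w) c) ξ =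
      Up ex ey p w g * (U ex ey p c (insert g w) + c g) := by
  rw [Up, if_neg hg]
  by_cases h : qq ex ey (pin ex ey p w) {g} = 0
  · rw [h, zero_mul]
    refine sum_eq_zero fun ξ _ => ?_
    rw [(sum_eq_zero_iff_of_nonneg fun ξ _ => mul_nonneg (Pw_nonneg (pin_mem hp w) ξ)
      (by split_ifs <;> norm_num)).1 h ξ (mem_univ ξ), zero_mul]
  have h2 : qq ex ey p (w ∪ {g}) ≠ 0 := fun z => h (by rw [← sh_qq hw, sh, z, zero_div])
  simp only [Pw_cond h, mul_assoc, ← mul_sum]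
  congr 1
  rw [U, insert_eq, union_comm, ← pin_pin h2,
    ← (pr_Pw (pin_mem (ex := ex) (ey := ey) (pin_mem (ex := ex) (ey := ey) hp w) {g})).ex_const (c g),
    ← ex_add]
  refine ex_congr fun ξ hξ => ?_
  have hL := singleton_subset_iff.1 (sub_L_of_pin h hξ).2
  rw [Ph, Ph, ← add_sum_erase _ _ hL, ← add_sum_erase _ _ hL]
  simp only [off, hg, if_false, mem_union, mem_singleton, or_true, if_true, zero_add]
  rw [add_comm]
  congr 1
  exact sum_congr rfl fun g' h' => by simp [(mem_erase.1 h').1]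

/-- covariance minus diagonal. -/
noncomputable def Br (ex ey : Fin T → Λ) (p : Fin T → ℝ) (a b : Lp T Λ → ℝ) : ℝ :=
  Op.ex (Pw p) (fun ξ => Ph ex ey a ξ * Ph ex ey b ξ) -
    Op.ex (Pw p) (Ph ex ey a) * Op.ex (Pw p) (Ph ex ey b) - Op.ex (Pw p) (Ph ex ey fun g => a g * b g)

lemma Br_add (a a' b : Lp T Λ → ℝ) :
    Br ex ey p (fun g => a g + a' g) b = Br ex ey p a b + Br ex ey p a' b := by
  have e : ∀ f f' : Lp T Λ → ℝ, Ph ex ey (fun g => f g + f' g) =
      fun ξ => Ph ex ey f ξ + Ph ex ey f' ξ := fun f f' => funext (Ph_add f f')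
  simp only [Br, add_mul, e, ex_add]; ring

lemma Br_resp (hp : ∀ s, 0 ≤ p s ∧ p s ≤ 1) (hw : qq ex ey p w ≠ 0) (hb : ∀ g ∈ w, b g = 0)
    (c : Lp T Λ → ℝ) : Br ex ey (pin ex ey p w) (off (· ∈ w) c) b =
      ∑ g, b g * Up ex ey p w g * (U ex ey p c (insert g w) - U ex ey p c w) := by
  simp only [Br, mul_comm (Ph ex ey (off _ c) _)]
  rw [ex_Ph_mul, ex_Ph _ b, ex_Ph _ fun g => off _ c g * b g, ← U, mul_sum, ← sum_sub_distrib,
    ← sum_sub_distrib]
  refine sum_congr rfl fun g _ => ?_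
  by_cases hg : g ∈ w
  · simp [hb g hg]
  · rw [resp hp hw hg]; simp only [Up, off, hg, if_false]; ring

lemma Br_crude (hp : ∀ s, 0 ≤ p s ∧ p s ≤ 1) (a b : Lp T Λ → ℝ) : Br ex ey p a b ^ 2 ≤
    (Fintype.card Λ + 1) ^ 2 * (Op.ex (Pw p) (Ph ex ey fun g => a g ^ 2) *
      Op.ex (Pw p) (Ph ex ey fun g => b g ^ 2)) := by
  have hP := pr_Pw hp
  set M := Op.ex (Pw p) (Ph ex ey fun g => a g ^ 2) * Op.ex (Pw p) (Ph ex ey fun g => b g ^ 2)
    with hM
  have a0 : ∀ f : Lp T Λ → ℝ, 0 ≤ Op.ex (Pw p) (Ph ex ey fun g => f g ^ 2) := fun f =>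
    ex_nn hP.nn (Ph_nn fun _ => sq_nonneg _)
  have hs : Real.sqrt M ^ 2 = M := Real.sq_sqrt (mul_nonneg (a0 a) (a0 b))
  have s0 := Real.sqrt_nonneg M
  have c1 : (Op.ex (Pw p) (fun ξ => Ph ex ey a ξ * Ph ex ey b ξ) -
      Op.ex (Pw p) (Ph ex ey a) * Op.ex (Pw p) (Ph ex ey b)) ^ 2 ≤
      (Fintype.card Λ * Real.sqrt M) ^ 2 := by
    have k := cs hP.nn (fun ξ => Ph ex ey a ξ - Op.ex (Pw p) (Ph ex ey a)) (Ph ex ey b)
    have e : ip (Pw p) (fun ξ => Ph ex ey a ξ - Op.ex (Pw p) (Ph ex ey a)) (Ph ex ey b) =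
        Op.ex (Pw p) (fun ξ => Ph ex ey a ξ * Ph ex ey b ξ) -
          Op.ex (Pw p) (Ph ex ey a) * Op.ex (Pw p) (Ph ex ey b) := by
      rw [← ex_mul, ← ex_sub, ip_eq_ex]; simp only [sub_mul]
    rw [e] at k
    refine k.trans ((mul_le_mul ((hP.var_le _).trans (nsq_Ph_le hp a)) (nsq_Ph_le hp b)
      (nsq_nn hP.nn _) (mul_nonneg (Nat.cast_nonneg _) (a0 a))).trans (le_of_eq ?_))
    rw [mul_pow, hs, hM]; ring
  have c2 : Op.ex (Pw p) (Ph ex ey fun g => a g * b g) ^ 2 ≤ Real.sqrt M ^ 2 := by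
    rw [hs, hM, ex_Ph, ex_Ph, ex_Ph]
    have q0 := (cpt_qq (ex := ex) (ey := ey) hp).nn
    exact sum_sq_le_sum_mul_sum_of_sq_le_mul _ (fun g _ => mul_nonneg (sq_nonneg _) (q0 _))
      (fun g _ => mul_nonneg (sq_nonneg _) (q0 _)) fun g _ => le_of_eq (by ring)
  have d1 := abs_le_of_sq_le_sq' c1 (by positivity)
  have d2 := abs_le_of_sq_le_sq' c2 s0
  rw [← hs, ← mul_pow, Br]
  exact sq_le_sq' (by linarith [d1.1, d2.2]) (by linarith [d1.2, d2.1])

variable {Sa : Lp T Λ → Prop} {Gw : Finset (Lp T Λ) → Lp T Λ → Prop} {κ ε : ℝ}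

/-- good births. -/
lemma HA.good (H : HA ex ey p u D Sa Gw κ ε) (a : Lp T Λ → ℝ) (hw : nu (qq ex ey p) u w ≠ 0) :
    ∑ g, u g * Up ex ey p w g * (i1 (Gw w g) * (U ex ey p (fun g => a g * D g) (insert g w) -
      U ex ey p (fun g => a g * D g) w) ^ 2) ≤
    2 * κ ^ 2 * U ex ey p (fun g => a g ^ 2 * D g) w + 2 * (Fintype.card Λ + 1) ^ 2 *
      U ex ey p (fun g => a g ^ 2 * D g * i1 (¬ Gw w g)) w := by
  set F := U ex ey p fun g => a g * D g with hF
  set X := ∑ g, u g * Up ex ey p w g * (i1 (Gw w g) * (F (insert g w) - F w) ^ 2) with hX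
  have hp' := pin_mem (ex := ex) (ey := ey) H.hp w
  have hP := pr_Pw hp'
  have aD0 : ∀ g, 0 ≤ a g ^ 2 * D g := fun g => mul_nonneg (sq_nonneg _) (H.hD g).1
  set b : Lp T Λ → ℝ := off (· ∈ w) fun g => u g * i1 (Gw w g) * (F (insert g w) - F w) with hb
  set a1 : Lp T Λ → ℝ := fun g => off (· ∈ w) a g * i1 (Gw w g) with ha1
  set c2 : Lp T Λ → ℝ := off (· ∈ w) fun g => a g * D g * i1 (¬ Gw w g) with hc2
  have e1 : X = Br ex ey (pin ex ey p w) (fun g => a1 g * D g) b + Br ex ey (pin ex ey p w) c2 b := by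
    rw [← Br_add, show (fun g => a1 g * D g + c2 g) = off (· ∈ w) fun g => a g * D g from
      funext fun g => by simp only [a1, c2, off, i1_not]; split_ifs <;> ring,
      Br_resp H.hp (nu_supp hw).1 fun g hg => by simp [b, off, hg]]
    refine sum_congr rfl fun g _ => ?_
    simp only [b, off, Up]; split_ifs <;> ring
  have e2 : Op.ex (Pw (pin ex ey p w)) (Ph ex ey fun g => b g ^ 2) ≤ X := by
    rw [hb, off_sq, ← U, U_eq]
    refine sum_le_sum fun g _ => ?_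
    have h1 := mul_nonneg (mul_nonneg (Up_nn (ex := ex) (ey := ey) H.hp w g) (i1_nn (Gw w g)))
      (sq_nonneg (F (insert g w) - F w))
    have h2 := mul_nonneg (mul_nonneg (H.hu g).1 (sub_nonneg.2 (H.hu g).2)) h1
    rw [mul_pow, mul_pow, i1_sq]; nlinarith
  have cr := H.crs w hw a1 b (fun g h => ⟨fun k => h (by simp [a1, off, k]),
    by by_contra k; exact h (by simp [a1, i1_neg k])⟩) fun g h =>
    ⟨fun k => h (by simp [b, off, k]), by by_contra k; exact h (by simp [b, off, i1_neg k])⟩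
  have m1 : Op.ex (Pw (pin ex ey p w)) (Ph ex ey fun g => a1 g ^ 2 * D g) ≤
      U ex ey p (fun g => a g ^ 2 * D g) w := ex_mono hP.nn (Ph_mono fun g => by
    have := mul_le_mul_of_nonneg_left (i1_le (Gw w g)) (aD0 g)
    simp only [a1, off, mul_pow, i1_sq]; split_ifs <;> nlinarith)
  have m2 : Op.ex (Pw (pin ex ey p w)) (Ph ex ey fun g => c2 g ^ 2) ≤
      U ex ey p (fun g => a g ^ 2 * D g * i1 (¬ Gw w g)) w := by
    rw [hc2, off_sq]
    refine U_mono H.hp (fun g => ?_) w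
    rw [mul_pow, i1_sq]
    exact mul_le_mul_of_nonneg_right (sqD_le H.hD a g) (i1_nn _)
  have b0 : 0 ≤ Op.ex (Pw (pin ex ey p w)) (Ph ex ey fun g => b g ^ 2) :=
    ex_nn hP.nn (Ph_nn fun _ => sq_nonneg _)
  have n0 := U_nn (ex := ex) (ey := ey) H.hp aD0 w
  have n1 := U_nn (ex := ex) (ey := ey) H.hp (fun g => mul_nonneg (aD0 g) (i1_nn (¬ Gw w g))) w
  have k1 := cr.trans (mul_le_mul (mul_le_mul_of_nonneg_left m1 (sq_nonneg κ)) e2 b0
    (by positivity))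
  have k2 := (Br_crude hp' c2 b).trans (mul_le_mul_of_nonneg_left (mul_le_mul m2 e2 b0 n1)
    (sq_nonneg _))
  change Br ex ey (pin ex ey p w) (fun g => a1 g * D g) b ^ 2 ≤ _ at k1
  refine PH.le_of_sq_le_mul (by positivity) ?_
  have : X ^ 2 ≤ 2 * Br ex ey (pin ex ey p w) (fun g => a1 g * D g) b ^ 2 +
      2 * Br ex ey (pin ex ey p w) c2 b ^ 2 := by
    rw [e1]; nlinarith [sq_nonneg (Br ex ey (pin ex ey p w) (fun g => a1 g * D g) b -
      Br ex ey (pin ex ey p w) c2 b)]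
  linarith

/-- **D-part.** -/
theorem HA.dir (H : HA ex ey p u D Sa Gw κ ε) {Bad : Finset (Lp T Λ) → Prop}
    (bad : ∀ g, Sa g → Rare ex ey p u g Bad ε)
    (death : ∀ w, nu (qq ex ey p) u w ≠ 0 → ¬ Bad w → ∀ g ∈ w, Gw (w.erase g) g)
    (birth : ∀ w, nu (qq ex ey p) u w ≠ 0 → ¬ Bad w →
      ∑ g, u g * Up ex ey p w g * i1 (¬ Gw w g) ≤ ε) (ha : ∀ g, a g ≠ 0 → Sa g) :
    Dir (nu (qq ex ey p) u) (U ex ey p fun g => a g * D g) ≤
      (2 * κ ^ 2 + 6 * (Fintype.card Λ + 1) ^ 2 * ε) *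
        Op.ex (nu (qq ex ey p) u) (U ex ey p fun g => a g ^ 2 * D g) := by
  have hu0 := fun g => (H.hu g).1
  have hν := pr_nu (cpt_qq (ex := ex) (ey := ey) H.hp) hu0
  set F := U ex ey p fun g => a g * D g with hF
  set n : ℝ := (Fintype.card Λ : ℝ) with hn
  have n0 : 0 ≤ n := Nat.cast_nonneg _
  have ε0 := H.ε0
  set Y := Op.ex (nu (qq ex ey p) u) (U ex ey p fun g => a g ^ 2 * D g) with hY
  have aD0 : ∀ g, 0 ≤ a g ^ 2 * D g := fun g => mul_nonneg (sq_nonneg _) (H.hD g).1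
  have Y0 : 0 ≤ Y := ex_nn hν.nn (U_nn H.hp aD0)
  have r := rare_sum (c := fun g => a g ^ 2 * D g) (E := fun g w => ¬ Gw w g) aD0
    fun g hg => H.rare g (ha g fun z => hg (by simp [z]))
  have m3 : Op.ex (nu (qq ex ey p) u) (U ex ey p fun g => (a g * D g) ^ 2) ≤ Y :=
    ex_mono hν.nn (U_mono H.hp (sqD_le H.hD a))
  have r2 : Op.ex (nu (qq ex ey p) u) (fun w => i1 (Bad w) * F w ^ 2) ≤ n * (ε * Y) :=
    (rare_sq H.hp hu0 fun g hg => bad g (ha g (left_ne_zero_of_mul hg))).trans (by gcongr)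
  have r3 : Op.ex (nu (qq ex ey p) u) (fun w => F w ^ 2) ≤ n * Y :=
    (ex_mono hν.nn (U_sq_le H.hp _)).trans (by rw [ex_mul]; gcongr)
  have s1 : Dir (nu (qq ex ey p) u) F ≤ Op.ex (nu (qq ex ey p) u) (fun A => ∑ g ∈ A,
      i1 (Gw (A.erase g) g) * (F (insert g (A.erase g)) - F (A.erase g)) ^ 2) +
      2 * n * Op.ex (nu (qq ex ey p) u) (fun w => i1 (Bad w) * F w ^ 2) +
      2 * Op.ex (nu (qq ex ey p) u) fun A => ∑ g ∈ A, i1 (¬ Gw (A.erase g) g) * F (A.erase g) ^ 2 := by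
    rw [← ex_mul, ← ex_mul, ← ex_add, ← ex_add]
    refine ex_mono_ae hν.nn fun A hA => ?_
    have k : ∑ g ∈ A, i1 (¬ Gw (A.erase g) g) * F A ^ 2 ≤ n * (i1 (Bad A) * F A ^ 2) := by
      by_cases hB : Bad A
      · rw [i1_pos hB, one_mul]
        refine (sum_le_card_nsmul _ _ (F A ^ 2) fun g _ =>
          mul_le_of_le_one_left (sq_nonneg _) (i1_le _)).trans ?_
        rw [nsmul_eq_mul]
        exact mul_le_mul_of_nonneg_right (Nat.cast_le.2 (card_le_of_qq (nu_supp hA).1)) (sq_nonneg _)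
      · rw [i1_neg hB, sum_eq_zero fun g hg => by rw [i1_neg (not_not.2 (death A hA hB g hg)), zero_mul]]
        simp
    have k2 : ∑ g ∈ A, (F A - F (A.erase g)) ^ 2 ≤ ∑ g ∈ A, (i1 (Gw (A.erase g) g) *
        (F (insert g (A.erase g)) - F (A.erase g)) ^ 2 + 2 * (i1 (¬ Gw (A.erase g) g) * F A ^ 2) +
        2 * (i1 (¬ Gw (A.erase g) g) * F (A.erase g) ^ 2)) := sum_le_sum fun g hg => by
      rw [insert_erase hg]
      by_cases k : Gw (A.erase g) g
      · simp [i1_pos k, i1_neg (not_not.2 k)]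
      · rw [i1_neg k, i1_pos k]; nlinarith [sq_nonneg (F A + F (A.erase g))]
    rw [sum_add_distrib, sum_add_distrib, ← mul_sum, ← mul_sum] at k2
    linarith
  rw [gnz_up H.hp u fun A g => i1 (Gw A g) * (F (insert g A) - F A) ^ 2,
    gnz_up H.hp u fun A g => i1 (¬ Gw A g) * F A ^ 2] at s1
  have s2 := ex_mono_ae hν.nn fun w hw => H.good a hw
  rw [ex_add, ex_mul, ex_mul] at s2
  have s3 : Op.ex (nu (qq ex ey p) u) (fun A => ∑ g, u g * Up ex ey p A g *
      (i1 (¬ Gw A g) * F A ^ 2)) ≤ ε * Op.ex (nu (qq ex ey p) u) (fun w => F w ^ 2) +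
      n * Op.ex (nu (qq ex ey p) u) fun w => i1 (Bad w) * F w ^ 2 := by
    rw [← ex_mul, ← ex_mul, ← ex_add]
    refine ex_mono_ae hν.nn fun A hA => ?_
    simp only [← mul_assoc, ← sum_mul, ← add_mul]
    refine mul_le_mul_of_nonneg_right ?_ (sq_nonneg _)
    by_cases hB : Bad A
    · rw [i1_pos hB, mul_one]
      refine le_trans (sum_le_sum fun g _ => ?_)
        ((U_one_le (ex := ex) (ey := ey) H.hp A).trans (le_add_of_nonneg_left ε0))
      have := Up_nn (ex := ex) (ey := ey) H.hp A g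
      exact (mul_le_of_le_one_right (mul_nonneg (hu0 g) this) (i1_le _)).trans
        (mul_le_of_le_one_left this (H.hu g).2)
    · rw [i1_neg hB, mul_zero, add_zero]; exact birth A hA hB
  have t1 := mul_le_mul_of_nonneg_left r (show 0 ≤ 2 * (n + 1) ^ 2 by positivity)
  have t2 := mul_le_mul_of_nonneg_left r2 n0
  have t3 := mul_le_mul_of_nonneg_left r3 ε0
  have t4 : 0 ≤ (6 * n + 4) * (ε * Y) := by positivity
  nlinarith

end Crest.Agent.N337.TK
end

-- ▼ part N337/TK/Main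
section

/-!
# Row 337, TK: the block terms (all classes) and TKb
-/

set_option autoImplicit false
set_option linter.unusedSectionVars false

namespace Crest.Agent.N337.TK

open Finset Crest.Agent.N337.Rep Crest.Agent.N337.LY0 Crest.Agent.N337.Op Crest.Agent.N337.Gas

lemma ex_sum' {Ω κ : Type} [Fintype Ω] (μ : Ω → ℝ) (s : Finset κ) (f : κ → Ω → ℝ) :
    Op.ex μ (fun ω => ∑ k ∈ s, f k ω) = ∑ k ∈ s, Op.ex μ (f k) := by
  simp only [Op.ex, mul_sum]; exact sum_comm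

lemma var_sum_le {Ω κ : Type} [Fintype Ω] [DecidableEq Ω] {μ : Ω → ℝ} (hμ : ∀ ω, 0 ≤ μ ω)
    (s : Finset κ) (f : κ → Ω → ℝ) :
    var μ (fun ω => ∑ k ∈ s, f k ω) ≤ s.card * ∑ k ∈ s, var μ (f k) := by
  simp only [var, nsq_eq_ex]
  rw [← ex_sum', ← ex_mul, ex_sum']
  exact ex_mono hμ fun ω => by rw [← sum_sub_distrib]; exact sq_sum_le_card_mul_sum_sq

variable {Λ : Type} [Fintype Λ] [DecidableEq Λ] {T : ℕ} [NeZero T] {ex ey : Fin T → Λ}
  {p : Fin T → ℝ} {v a b c D : Lp T Λ → ℝ} {ws : Fin T → Fin T} {near : Λ → Λ → Prop}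
  {Z : Λ → Finset Λ} {w x A : Finset (Lp T Λ)} {g : Lp T Λ}

lemma wd_pos {p : Fin T → ℝ} (h : qq ex ey p {g} ≠ 0) : 0 < wd g := by
  obtain ⟨ξ, -, hξ⟩ := qq_supp h
  obtain ⟨u, rfl⟩ := mem_L.1 (singleton_subset_iff.1 hξ)
  rw [← wind_eq_wd]; exact Arc.wind_pos ξ u

lemma U_congr (h : ∀ g, g ∉ w → 0 < wd g → a g = b g) : U ex ey p a w = U ex ey p b w := by
  rw [U_eq, U_eq]
  refine sum_congr rfl fun g _ => ?_
  unfold Up
  split_ifs with k
  · simp
  · by_cases z : qq ex ey (pin ex ey p w) {g} = 0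
    · simp [z]
    · rw [h g k (wd_pos z)]

lemma U_child (h : qq ex ey p (x ∪ A) ≠ 0) (c : Lp T Λ → ℝ) :
    U ex ey (pin ex ey p x) (off (· ∈ x) c) A = U ex ey p c (x ∪ A) := by
  rw [U, U, pin_pin h]
  congr 2; funext g
  simp only [off, mem_union]
  by_cases a : g ∈ x <;> by_cases b : g ∈ A <;> simp [a, b]

/-- the dyadic class of a loop. -/
def cl (k : ℕ) (a : Lp T Λ → ℝ) (g : Lp T Λ) : ℝ :=
  if 0 < wd g ∧ Nat.log 2 (wd g) = k then a g else 0

lemma cl_supp {k : ℕ} (h : cl k a g ≠ 0) : a g ≠ 0 ∧ 2 ^ k ≤ wd g ∧ wd g < 2 * 2 ^ k := by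
  unfold cl at h
  split_ifs at h with z
  · obtain ⟨z1, rfl⟩ := z
    exact ⟨h, Nat.pow_log_le_self 2 z1.ne', by
      rw [← pow_succ']; exact Nat.lt_pow_succ_log_self one_lt_two _⟩
  · exact absurd rfl h

lemma sum_cl {Km : ℕ} (h : ∀ g, a g ≠ 0 → wd g ≤ Km) (hg : 0 < wd g) :
    ∑ k ∈ range (Nat.log 2 Km + 1), cl k a g = a g := by
  simp only [cl, hg, true_and, sum_ite_eq, mem_range]
  split_ifs with z
  · rfl
  · by_contra y
    exact z (Nat.lt_succ_of_le (Nat.log_mono_right (h g (Ne.symm y))))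

lemma sum_cl_sq (s : Finset ℕ) (a f : Lp T Λ → ℝ) (hf : ∀ g, 0 ≤ f g) (g : Lp T Λ) :
    ∑ k ∈ s, cl k a g ^ 2 * f g ≤ a g ^ 2 * f g := by
  rw [← sum_mul]
  refine mul_le_mul_of_nonneg_right ?_ (hf g)
  by_cases z : 0 < wd g
  · simp only [cl, z, true_and, ite_pow, ne_eq, OfNat.ofNat_ne_zero, not_false_eq_true, zero_pow,
      sum_ite_eq]
    split_ifs; exacts [le_rfl, sq_nonneg _]
  · simp [cl, z, sq_nonneg]

/-- **block terms.** -/
theorem blk (hp : ∀ s, 0 ≤ p s ∧ p s ≤ 1) (hv : ∀ g, 0 ≤ v g) {N n1 n2 Bn k0 Km : ℕ}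
    (hB : Blk ex ey near Z N n1 n2 p v) (hws : ∀ s, ws s ≤ s) (hBn : (univ.image ws).card ≤ Bn)
    {q δ : ℝ} (q0 : 0 < q) (δ0 : 0 ≤ δ) (hD : ∀ g, 0 ≤ D g ∧ D g ≤ 1) (hδ : ∀ g, D g ≤ δ * wd g)
    (ha : ∀ g, a g ≠ 0 → Slw ex ey (Arc.spd ws near) g ∧ wd g ≤ Km)
    (Gc : Finset (Lp T Λ) → Lp T Λ → Prop) (hit : ∀ w, nu (qq ex ey p) v w ≠ 0 →
      Hit ex ey (Arc.spd ws near) Z (pin ex ey p w) (fun g => Gc w g ∧ 2 ^ k0 ≤ wd g) q) :
    var (nu (qq ex ey p) v) (U ex ey p fun g => a g * D g) ≤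
      κB q δ Bn N n1 n2 k0 Km * Op.ex (nu (qq ex ey p) v) (U ex ey p fun g => a g ^ 2 * D g) +
      cB Bn N n1 Km * Op.ex (nu (qq ex ey p) v)
        fun w => U ex ey p (fun g => a g ^ 2 * (D g * i1 (¬ Gc w g))) w := by
  obtain ⟨ι, _, _, B, Bp, h1, h2, h3, h4, h5, h6, h7⟩ := hB
  have pv := pr_nu (cpt_qq (ex := ex) (ey := ey) hp) hv
  set M : ℝ := Bn * n1 with hM
  have M0 : 0 ≤ M := by positivity
  set Lg : ℝ := Nat.log 2 N + 1 with hLg
  have L0 : 0 ≤ Lg := by positivity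
  set X : ℕ → ℝ := fun k => Op.ex (nu (qq ex ey p) v) (U ex ey p fun g => cl k a g ^ 2 * D g)
  set Y : ℕ → ℝ := fun k => Op.ex (nu (qq ex ey p) v)
    fun w => U ex ey p (fun g => cl k a g ^ 2 * (D g * i1 (¬ Gc w g))) w
  have X0 : ∀ k, 0 ≤ X k := fun k =>
    ex_nn pv.nn (U_nn hp fun g => mul_nonneg (sq_nonneg _) (hD g).1)
  have Y0 : ∀ k, 0 ≤ Y k := fun k => ex_nn pv.nn fun w =>
    U_nn hp (fun g => mul_nonneg (sq_nonneg _) (mul_nonneg (hD g).1 (i1_nn _))) w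
  have one : ∀ k, var (nu (qq ex ey p) v) (U ex ey p fun g => cl k a g * D g) ≤
      Lg * (192 * M * δ * 2 ^ k0 + 3072 * q * M + 24 * n2 / 2 ^ k0) * X k + Lg * (48 * M) * Y k := by
    intro k
    have hc : ∀ g, cl k a g * D g ≠ 0 →
        Slw ex ey (Arc.spd ws near) g ∧ 2 ^ k ≤ wd g ∧ wd g ≤ 2 * 2 ^ k := fun g h =>
      have := cl_supp (left_ne_zero_of_mul h); ⟨(ha g this.1).1, this.2.1, this.2.2.le⟩
    have K0 : (0 : ℝ) < 2 ^ k := by positivity
    have := X0 k; have := Y0 k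
    rcases lt_or_ge k k0 with hk | hk
    · have z := blk1 (Z := fun _ => ∅) (n2 := 0) hp hv h1 h2 h3 h4 h5 h6 (fun _ => by simp) hws hBn
        (q := 1 / 64) (by norm_num) (Nat.two_pow_pos k) hc (fun _ _ => False)
        fun _ _ _ _ _ _ h => h.elim
      have y : Op.ex (nu (qq ex ey p) v) (U ex ey p fun g => (cl k a g * D g) ^ 2) ≤
          δ * 2 ^ k0 * X k := by
        rw [← ex_mul]
        refine ex_mono pv.nn fun w => ?_
        rw [← U_mul]
        refine U_mono hp (fun g => ?_) w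
        by_cases e : cl k a g = 0
        · simp [e]
        · have a1 : (wd g : ℝ) ≤ 2 ^ k0 := by
            have := (cl_supp e).2.2.le.trans (show 2 * 2 ^ k ≤ 2 ^ k0 by
              rw [← pow_succ']; exact Nat.pow_le_pow_right two_pos hk)
            exact_mod_cast this
          have a2 := (hδ g).trans (mul_le_mul_of_nonneg_left a1 δ0)
          nlinarith [mul_le_mul_of_nonneg_left a2 (mul_nonneg (sq_nonneg (cl k a g)) (hD g).1)]
      simp only [not_false_eq_true, i1_pos trivial, mul_one] at z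
      push_cast at z
      refine z.trans ?_
      calc _ = Lg * (96 * M) * Op.ex (nu (qq ex ey p) v)
            (U ex ey p fun g => (cl k a g * D g) ^ 2) := by rw [hM]; field_simp; ring
        _ ≤ Lg * (96 * M) * (δ * 2 ^ k0 * X k) := by gcongr
        _ ≤ _ := by
          have : 0 ≤ Lg * (96 * M * δ * 2 ^ k0 + 3072 * q * M + 24 * n2 / 2 ^ k0) * X k +
            Lg * (48 * M) * Y k := by positivity
          linarith
    · have z := blk1 hp hv h1 h2 h3 h4 h5 h6 h7 hws hBn q0 (Nat.two_pow_pos k) hc _ hit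
      have y1 : Op.ex (nu (qq ex ey p) v) (U ex ey p fun g => (cl k a g * D g) ^ 2) ≤ X k :=
        ex_mono pv.nn (U_mono hp (sqD_le hD _))
      have y2 : Op.ex (nu (qq ex ey p) v) (fun w => U ex ey p (fun g => (cl k a g * D g) ^ 2 *
          i1 (¬ (Gc w g ∧ 2 ^ k0 ≤ wd g))) w) ≤ Y k := by
        refine ex_mono pv.nn fun w => U_mono hp (fun g => ?_) w
        by_cases e : cl k a g = 0
        · simp [e]
        · rw [i1_congr (not_congr (and_iff_left
            ((Nat.pow_le_pow_right two_pos hk).trans (cl_supp e).2.1))), ← mul_assoc]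
          exact mul_le_mul_of_nonneg_right (sqD_le hD _ g) (i1_nn _)
      have y3 : (n2 : ℝ) / 2 ^ k ≤ n2 / 2 ^ k0 := by gcongr; norm_num
      push_cast at z
      refine z.trans ?_
      calc _ ≤ 24 * Lg * ((64 * q * (2 * 2 ^ k * M) + n2) * (X k / 2 ^ k) +
            2 * 2 ^ k * M * (Y k / 2 ^ k)) := by gcongr
        _ = Lg * (3072 * q * M + 24 * (n2 / 2 ^ k)) * X k + Lg * (48 * M) * Y k := by
          field_simp; ring
        _ ≤ Lg * (3072 * q * M + 24 * (n2 / 2 ^ k0)) * X k + Lg * (48 * M) * Y k := by gcongr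
        _ ≤ _ := by
          have : 0 ≤ Lg * (192 * M * δ * 2 ^ k0) * X k := by positivity
          rw [mul_div_assoc]; linarith
  have e : (U ex ey p fun g => a g * D g) =
      fun w => ∑ k ∈ range (Nat.log 2 Km + 1), U ex ey p (fun g => cl k a g * D g) w := by
    funext w
    rw [← U_sum]
    exact U_congr fun g _ hg => by rw [← sum_mul, sum_cl (fun g h => (ha g h).2) hg]
  have sX : ∑ k ∈ range (Nat.log 2 Km + 1), X k ≤
      Op.ex (nu (qq ex ey p) v) (U ex ey p fun g => a g ^ 2 * D g) := by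
    rw [← ex_sum']
    exact ex_mono pv.nn fun w => by
      rw [← U_sum]; exact U_mono hp (sum_cl_sq _ a D fun g => (hD g).1) w
  have sY : ∑ k ∈ range (Nat.log 2 Km + 1), Y k ≤ Op.ex (nu (qq ex ey p) v)
      fun w => U ex ey p (fun g => a g ^ 2 * (D g * i1 (¬ Gc w g))) w := by
    rw [← ex_sum']
    exact ex_mono pv.nn fun w => by
      rw [← U_sum]
      exact U_mono hp (sum_cl_sq _ a _ fun g => mul_nonneg (hD g).1 (i1_nn _)) w
  rw [e]
  refine (var_sum_le pv.nn _ _).trans ?_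
  have t1 := sum_le_sum fun k (_ : k ∈ range (Nat.log 2 Km + 1)) => one k
  rw [sum_add_distrib, ← mul_sum, ← mul_sum] at t1
  have t2 := add_le_add (mul_le_mul_of_nonneg_left sX (show 0 ≤ Lg * (192 * M * δ * 2 ^ k0 +
    3072 * q * M + 24 * n2 / 2 ^ k0) by positivity))
    (mul_le_mul_of_nonneg_left sY (show 0 ≤ Lg * (48 * M) by positivity))
  refine (mul_le_mul_of_nonneg_left (t1.trans t2) (Nat.cast_nonneg _)).trans (le_of_eq ?_)
  generalize Op.ex (nu (qq ex ey p) v) (U ex ey p fun g => a g ^ 2 * D g) = y1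
  generalize (Op.ex (nu (qq ex ey p) v)
    fun w => U ex ey p (fun g => a g ^ 2 * (D g * i1 (¬ Gc w g))) w) = y2
  rw [card_range, κB, cB, hM, hLg]
  push_cast
  ring

variable {u : Lp T Λ → ℝ} {Sa : Lp T Λ → Prop} {Gw : Finset (Lp T Λ) → Lp T Λ → Prop}
  {Bad : Finset (Lp T Λ) → Prop} {κ ε q δ C0 nk Nr : ℝ} {Bn N n1 n2 k0 Km : ℕ}

/-- **the fibre terms of LP** (no volume factor). -/
theorem blk_fib (H : HA ex ey p u D Sa Gw κ ε)
    (K : HB ex ey p u D Sa Gw Bad ws near Z ε q δ C0 nk Nr Bn N n1 n2 k0 Km)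
    {I : Type} [Fintype I] {m : I → ℝ} {x : I → Finset (Lp T Λ)} {v : I → Lp T Λ → ℝ}
    (m0 : ∀ i, 0 ≤ m i) (hm : ∀ i, m i ≠ 0 → qq ex ey p (x i) ≠ 0 ∧ (∀ g, 0 ≤ v i g) ∧
      Blk ex ey near Z N n1 n2 (pin ex ey p (x i)) (v i))
    (dom : ∀ G : Finset (Lp T Λ) → ℝ, (∀ w, 0 ≤ G w) →
      ∑ i, m i * Op.ex (nu (qq ex ey (pin ex ey p (x i))) (v i)) (fun A => G (x i ∪ A)) ≤
        nk * Op.ex (nu (qq ex ey p) u) G) (ha : ∀ g, a g ≠ 0 → Sa g) :
    ∑ i, m i * var (nu (qq ex ey (pin ex ey p (x i))) (v i))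
      (fun A => U ex ey p (fun g => a g * D g) (x i ∪ A)) ≤
      nk * ((κB q δ Bn N n1 n2 k0 Km + cB Bn N n1 Km * ε) *
        Op.ex (nu (qq ex ey p) u) (U ex ey p fun g => a g ^ 2 * D g)) := by
  have hu0 := fun g => (H.hu g).1
  have hν := pr_nu (cpt_qq (ex := ex) (ey := ey) H.hp) hu0
  set F := U ex ey p fun g => a g * D g with hF
  set Y := Op.ex (nu (qq ex ey p) u) (U ex ey p fun g => a g ^ 2 * D g) with hY
  have aD0 : ∀ g, 0 ≤ a g ^ 2 * D g := fun g => mul_nonneg (sq_nonneg _) (H.hD g).1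
  have r := rare_sum (c := fun g => a g ^ 2 * D g) (E := fun g w => ¬ Gw w g) aD0
    fun g hg => H.rare g (ha g fun z => hg (by simp [z]))
  have k0' : 0 ≤ κB q δ Bn N n1 n2 k0 Km := by
    have := K.q0; have := K.δ0; unfold κB; positivity
  have c0' : 0 ≤ cB Bn N n1 Km := by unfold cB; positivity
  set G : Finset (Lp T Λ) → ℝ := fun w =>
    κB q δ Bn N n1 n2 k0 Km * U ex ey p (fun g => a g ^ 2 * D g) w +
      cB Bn N n1 Km * U ex ey p (fun g => a g ^ 2 * D g * i1 (¬ Gw w g)) w with hG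
  have G0 : ∀ w, 0 ≤ G w := fun w => add_nonneg (mul_nonneg k0' (U_nn H.hp aD0 w))
    (mul_nonneg c0' (U_nn H.hp (fun g => mul_nonneg (aD0 g) (i1_nn _)) w))
  have b : ∀ i, m i * var (nu (qq ex ey (pin ex ey p (x i))) (v i)) (fun A => F (x i ∪ A)) ≤
      m i * Op.ex (nu (qq ex ey (pin ex ey p (x i))) (v i)) fun A => G (x i ∪ A) := by
    intro i
    by_cases z : m i = 0
    · simp [z]
    refine mul_le_mul_of_nonneg_left ?_ (m0 i)
    obtain ⟨a1, a2, a3⟩ := hm i z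
    have hp' := pin_mem (ex := ex) (ey := ey) H.hp (x i)
    have pv := pr_nu (cpt_qq (ex := ex) (ey := ey) hp') a2
    have sup : ∀ A, nu (qq ex ey (pin ex ey p (x i))) (v i) A ≠ 0 →
        nu (qq ex ey p) u (x i ∪ A) ≠ 0 := by
      intro A hA h0
      have t := dom (fun w => i1 (w = x i ∪ A)) fun _ => i1_nn _
      rw [show Op.ex (nu (qq ex ey p) u) (fun w => i1 (w = x i ∪ A)) = 0 from
        sum_eq_zero fun w _ => by
          by_cases e : w = x i ∪ A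
          · rw [e, h0, zero_mul]
          · simp only [i1_neg e, mul_zero], mul_zero] at t
      have t1 := (single_le_sum (f := fun j => m j * Op.ex (nu (qq ex ey (pin ex ey p (x j))) (v j))
        fun A' => i1 (x j ∪ A' = x i ∪ A)) (fun j _ => by
          by_cases y : m j = 0
          · simp [y]
          · exact mul_nonneg (m0 j) (ex_nn (nu_nn (cpt_qq (pin_mem H.hp _)) (hm j y).2.1)
              fun _ => i1_nn _)) (mem_univ i)).trans t
      have t2 := single_le_sum (f := fun A' => nu (qq ex ey (pin ex ey p (x i))) (v i) A' *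
        i1 (x i ∪ A' = x i ∪ A)) (fun A' _ => mul_nonneg (pv.nn _) (i1_nn _)) (mem_univ A)
      simp only [i1_pos, mul_one] at t2
      exact absurd (mul_pos ((m0 i).lt_of_ne' z) (((pv.nn A).lt_of_ne' hA).trans_le t2))
        (not_lt.2 t1)
    have eo : ∀ f : Lp T Λ → ℝ → ℝ, (∀ g, f g 0 = 0) →
        (fun g => f g (off (· ∈ x i) a g)) = off (· ∈ x i) fun g => f g (a g) := fun f h => by
      funext g; unfold off; split_ifs <;> simp [h]
    have t := blk hp' a2 a3 K.hws K.hB K.q0 K.δ0 H.hD K.small (a := off (· ∈ x i) a)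
      (fun g h => K.slow g (ha g fun y => h (by simp [off, y])))
      (fun A g => g ∉ x i ∪ A ∧ Gw (x i ∪ A) g) (k0 := k0) fun A hA => by
        rw [pin_pin (nu_supp (sup A hA)).1]
        simpa only [and_assoc] using K.hit _ (sup A hA)
    rw [eo (fun g y => y * D g) (by simp), eo (fun g y => y ^ 2 * D g) (by simp),
      var_congr fun A hA => U_child (nu_supp (sup A hA)).1 _, ← ex_mul, ← ex_mul, ← ex_add] at t
    refine t.trans (le_of_eq (ex_congr fun A hA => ?_))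
    rw [eo (fun g y => y ^ 2 * (D g * i1 (¬ (g ∉ x i ∪ A ∧ Gw (x i ∪ A) g)))) (by simp),
      U_child (nu_supp (sup A hA)).1, U_child (nu_supp (sup A hA)).1]
    simp only [G]
    congr 2
    exact U_congr fun g hg _ => by rw [i1_congr (not_congr (and_iff_right hg)), mul_assoc]
  have s1 := (sum_le_sum fun i _ => b i).trans (dom G G0)
  have nk0 : 0 ≤ nk := by
    have t := dom (fun _ => 1) fun _ => zero_le_one
    rw [hν.ex_const, mul_one] at t
    refine le_trans (sum_nonneg fun j _ => ?_) t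
    by_cases y : m j = 0
    · simp [y]
    · exact mul_nonneg (m0 j) (ex_nn (nu_nn (cpt_qq (pin_mem H.hp _)) (hm j y).2.1)
        fun _ => zero_le_one)
  have s2 : Op.ex (nu (qq ex ey p) u) G ≤ (κB q δ Bn N n1 n2 k0 Km + cB Bn N n1 Km * ε) * Y := by
    rw [hG, ex_add, ex_mul, ex_mul]
    nlinarith [mul_le_mul_of_nonneg_left r c0']
  exact s1.trans (mul_le_mul_of_nonneg_left s2 nk0)

/-- **TKb.** -/
theorem tkb : TKbStmt := by
  intro Λ _ _ T _ ex ey p u D Sa Gw Bad ws near Z κ ε q δ C0 nk Nr Bn N n1 n2 k0 Km H K a ha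
  obtain ⟨I, _, m, x, v, m0, hm, dom, lp⟩ := K.lp
  have hu0 := fun g => (H.hu g).1
  have hν := pr_nu (cpt_qq (ex := ex) (ey := ey) H.hp) hu0
  set F := U ex ey p fun g => a g * D g with hF
  set n : ℝ := (Fintype.card Λ : ℝ) with hn
  have n0 : 0 ≤ n := Nat.cast_nonneg _
  have ε0 := H.ε0
  set Y := Op.ex (nu (qq ex ey p) u) (U ex ey p fun g => a g ^ 2 * D g) with hY
  have m3 : Op.ex (nu (qq ex ey p) u) (U ex ey p fun g => (a g * D g) ^ 2) ≤ Y :=
    ex_mono hν.nn (U_mono H.hp (sqD_le H.hD a))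
  have r2 : Op.ex (nu (qq ex ey p) u) (fun w => i1 (Bad w) * F w ^ 2) ≤ n * (ε * Y) :=
    (rare_sq H.hp hu0 fun g hg => K.bad g (ha g (left_ne_zero_of_mul hg))).trans (by gcongr)
  have r3 : Op.ex (nu (qq ex ey p) u) (fun w => F w ^ 2) ≤ n * Y :=
    (ex_mono hν.nn (U_sq_le H.hp _)).trans (by rw [ex_mul]; gcongr)
  have d := H.dir K.bad K.death K.birth ha
  have s1 := blk_fib H K m0 hm dom ha
  have s3 : Op.ex (nu (qq ex ey p) u) (fun w => Nr * (ε + i1 (Bad w)) * F w ^ 2) ≤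
      2 * Nr * n * ε * Y := by
    simp only [mul_assoc Nr, add_mul]
    rw [ex_mul, ex_add, ex_mul]
    nlinarith [mul_le_mul_of_nonneg_left (add_le_add (mul_le_mul_of_nonneg_left r3 ε0) r2) K.Nr0]
  refine (lp F).trans ?_
  have := mul_le_mul_of_nonneg_left (add_le_add d s1)
    K.hC0
  rw [κb]
  linarith

end Crest.Agent.N337.TK
end

-- ▼ part N337/TK/Sup

/-!
# Row 337, block TK with a support bound (helper42): TKa, births and deaths, residual
-/

set_option autoImplicit false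
set_option linter.unusedSectionVars false

namespace Crest.Agent.N337.TS

open Finset Crest.Agent.N337.Rep Crest.Agent.N337.Op Crest.Agent.N337.Gas Crest.Agent.N337.TK
open Crest.Agent.N337.Pc (up Phb U_eq up_qq up_nn)

variable {Λ : Type} [Fintype Λ] [DecidableEq Λ] {T : ℕ} [NeZero T]

/-- the roots of the alive loops lie in a set of at most `n` slots. -/
def Sup (u D : Lp T Λ → ℝ) (n : ℕ) : Prop :=
  ∃ S : Finset Λ, S.card ≤ n ∧ ∀ g, u g ≠ 0 ∨ D g ≠ 0 → ∀ x, (0, x) ∈ g.2 → x ∈ S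

variable {ex ey : Fin T → Λ} {p : Fin T → ℝ} {u D a c c' : Lp T Λ → ℝ} {n : ℕ}
  {w : Finset (Lp T Λ)} {Sa : Lp T Λ → Prop} {Gw : Finset (Lp T Λ) → Lp T Λ → Prop}
  {Bad : Finset (Lp T Λ) → Prop} {κ ε : ℝ}

lemma i1_nn (P : Prop) : 0 ≤ i1 P := by unfold i1; split_ifs <;> norm_num
lemma i1_le (P : Prop) : i1 P ≤ 1 := by unfold i1; split_ifs <;> norm_num
lemma i1_pos {P : Prop} (h : P) : i1 P = 1 := if_pos h
lemma i1_neg {P : Prop} (h : ¬ P) : i1 P = 0 := if_neg h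

lemma Sup.card (h : Sup u D n) (ξ : Fin T → Bool) {A : Finset (Lp T Λ)} (hA : A ⊆ L ex ey ξ)
    (hc : ∀ g ∈ A, u g ≠ 0 ∨ D g ≠ 0) : A.card ≤ n := by
  obtain ⟨S, h1, h2⟩ := h
  have := Pc.card_L_le (ex := ex) (ey := ey) ξ (Q := A) fun g hg => h2 g (hc g hg)
  rw [inter_eq_right.2 hA] at this
  exact this.trans h1

lemma Sup.sq (h : Sup u D n) (hc : ∀ g, c g ≠ 0 → u g ≠ 0 ∨ D g ≠ 0) (ξ : Fin T → Bool) :
    Ph ex ey c ξ ^ 2 ≤ n * Ph ex ey (fun g => c g ^ 2) ξ := by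
  classical
  rw [Ph, ← sum_filter_ne_zero]
  refine sq_sum_le_card_mul_sum_sq.trans (mul_le_mul ?_ (sum_le_sum_of_subset_of_nonneg
    (filter_subset _ _) fun _ _ _ => sq_nonneg _) (sum_nonneg fun _ _ => sq_nonneg _)
    (Nat.cast_nonneg _))
  exact_mod_cast h.card ξ (filter_subset _ _) fun g hg => hc g (mem_filter.1 hg).2

lemma U_sum (hw : qq ex ey p w ≠ 0) (c : Lp T Λ → ℝ) :
    U ex ey p c w = ∑ g, c g * Up ex ey p w g := by
  rw [U_eq hw]; exact sum_congr rfl fun g _ => by rw [up_qq hw]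

lemma Up_nn (hp : ∀ s, 0 ≤ p s ∧ p s ≤ 1) (w : Finset (Lp T Λ)) (g : Lp T Λ) :
    0 ≤ Up ex ey p w g := by
  unfold Up; split_ifs; exacts [le_rfl, (cpt_qq (pin_mem hp w)).nn _]

lemma U_mono (hp : ∀ s, 0 ≤ p s ∧ p s ≤ 1) (h : ∀ g, g ∉ w → c g ≤ c' g) :
    U ex ey p c w ≤ U ex ey p c' w :=
  ex_mono (pr_Pw (pin_mem hp w)).nn fun _ => sum_le_sum fun g _ => by
    unfold off; split_ifs with h1; exacts [le_rfl, h g h1]

lemma U_nn (hp : ∀ s, 0 ≤ p s ∧ p s ≤ 1) (h : ∀ g, 0 ≤ c g) : 0 ≤ U ex ey p c w :=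
  ex_nn (pr_Pw (pin_mem hp w)).nn fun _ => sum_nonneg fun g _ => off_nn h g

lemma ex_Ph (h : ∀ g ∈ w, c g = 0) : Op.ex (Pw (pin ex ey p w)) (Ph ex ey c) = U ex ey p c w := by
  rw [U]; congr 2; funext g; unfold off; split_ifs with h1; exacts [h g h1, rfl]

lemma Ph_add (c c' : Lp T Λ → ℝ) (ξ : Fin T → Bool) :
    Ph ex ey (fun g => c g + c' g) ξ = Ph ex ey c ξ + Ph ex ey c' ξ := sum_add_distrib

lemma sqD (hD : ∀ g, 0 ≤ D g ∧ D g ≤ 1) (x : ℝ) (g : Lp T Λ) : (x * D g) ^ 2 ≤ x ^ 2 * D g := by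
  nlinarith [mul_nonneg (mul_nonneg (sq_nonneg x) (hD g).1) (sub_nonneg.2 (hD g).2)]

/-- crude bound. -/
lemma Sup.U_sq (h : Sup u D n) (hp : ∀ s, 0 ≤ p s ∧ p s ≤ 1) (hD : ∀ g, 0 ≤ D g ∧ D g ≤ 1) :
    nsq (Pw (pin ex ey p w)) (Ph ex ey (off (· ∈ w) fun g => a g * D g)) ≤
      n * U ex ey p (fun g => a g ^ 2 * D g) w := by
  rw [U, ← ex_mul]
  refine ex_mono (pr_Pw (pin_mem hp w)).nn fun ξ => (h.sq (fun g hg => .inr fun h0 => hg ?_) ξ).trans
    (mul_le_mul_of_nonneg_left (sum_le_sum fun g _ => ?_) (Nat.cast_nonneg _))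
  · simp [off, h0]
  · unfold off; split_ifs; exacts [by simp, sqD hD _ g]

lemma rare_sum {E : Finset (Lp T Λ) → Lp T Λ → Prop} (hc : ∀ g, 0 ≤ c g)
    (h : ∀ g, c g ≠ 0 → Rare ex ey p u g (fun w => E w g) ε) :
    Op.ex (nu (qq ex ey p) u) (fun w => U ex ey p (fun g => c g * i1 (E w g)) w) ≤
      ε * Op.ex (nu (qq ex ey p) u) (U ex ey p c) := by
  rw [ex_congr fun w hw => U_sum (nu_supp hw).1 _, ex_congr fun w hw => U_sum (nu_supp hw).1 c,
    ex_sum', ex_sum', mul_sum]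
  refine sum_le_sum fun g _ => ?_
  simp only [mul_assoc, ex_mul]
  by_cases h0 : c g = 0
  · simp [h0]
  · rw [mul_left_comm]; exact mul_le_mul_of_nonneg_left (h g h0) (hc g)

open Classical in
/-- the good part of the test. -/
noncomputable def ag (a : Lp T Λ → ℝ) (Gw : Finset (Lp T Λ) → Lp T Λ → Prop)
    (w : Finset (Lp T Λ)) (g : Lp T Λ) : ℝ := if g ∉ w ∧ Gw w g then a g else 0
/-- the bad part of the test. -/
noncomputable def ab (a : Lp T Λ → ℝ) (Gw : Finset (Lp T Λ) → Lp T Λ → Prop)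
    (w : Finset (Lp T Λ)) (g : Lp T Λ) : ℝ := a g * i1 (¬ Gw w g)

lemma ag_supp {g : Lp T Λ} (h : ag a Gw w g ≠ 0) : g ∉ w ∧ Gw w g := by
  by_contra h1; exact h (if_neg h1)

lemma ag_zero {g : Lp T Λ} (h : g ∈ w) : ag a Gw w g = 0 := if_neg fun h1 => h1.1 h

lemma ag_sq (g : Lp T Λ) : ag a Gw w g ^ 2 ≤ a g ^ 2 := by
  unfold ag; split_ifs; exacts [le_rfl, by simpa using sq_nonneg _]

lemma ab_sq (g : Lp T Λ) : ab a Gw w g ^ 2 * D g = a g ^ 2 * D g * i1 (¬ Gw w g) := by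
  unfold ab i1; split_ifs <;> simp

lemma split (a D : Lp T Λ → ℝ) (Gw : Finset (Lp T Λ) → Lp T Λ → Prop) (w : Finset (Lp T Λ)) :
    (off (· ∈ w) fun g => a g * D g) =
      fun g => ag a Gw w g * D g + off (· ∈ w) (fun g => ab a Gw w g * D g) g := by
  funext g
  by_cases h1 : g ∈ w <;> by_cases h2 : Gw w g <;> simp [off, ag, ab, i1, h1, h2]

lemma var_add_le {Ω : Type} [Fintype Ω] [DecidableEq Ω] {μ : Ω → ℝ} (hμ : Pr μ) (f g : Ω → ℝ) {t : ℝ}
    (ht : 0 < t) : var μ (fun ω => f ω + g ω) ≤ (1 + t) * var μ f + (1 + 1 / t) * nsq μ g := by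
  refine (hμ.var_le_sub _ (Op.ex μ f)).trans ?_
  rw [var, nsq_eq_ex, nsq_eq_ex, nsq_eq_ex, ← ex_mul, ← ex_mul, ← ex_add]
  refine ex_mono hμ.nn fun ω => ?_
  have := div_nonneg (sq_nonneg (t * (f ω - Op.ex μ f) - g ω)) ht.le
  have e : (t * (f ω - Op.ex μ f) - g ω) ^ 2 / t = (1 + t) * (f ω - Op.ex μ f) ^ 2 +
    (1 + 1 / t) * g ω ^ 2 - (f ω + g ω - Op.ex μ f) ^ 2 := by field_simp; ring
  linarith

/-- **TKa** with a support bound. -/
theorem tka (H : HA ex ey p u D Sa Gw κ ε) (hS : Sup u D n) {t : ℝ} (ht : 0 < t) :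
    TKa ex ey p u D Sa (κa n κ ε t) := fun a ha => by
  have hν := pr_nu (cpt_qq (ex := ex) (ey := ey) H.hp) fun g => (H.hu g).1
  have n0 := fun g => mul_nonneg (sq_nonneg (a g)) (H.hD g).1
  have r := rare_sum n0 fun g hg => H.rare g (ha g fun h => hg (by simp [h]))
  have key : ∀ w, nu (qq ex ey p) u w ≠ 0 →
      var (Pw (pin ex ey p w)) (Ph ex ey (off (· ∈ w) fun g => a g * D g)) ≤
      U ex ey p (fun g => (a g * D g) ^ 2) w +
        (κ + t * (1 + κ)) * U ex ey p (fun g => a g ^ 2 * D g) w +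
        (1 + 1 / t) * n * U ex ey p (fun g => a g ^ 2 * D g * i1 (¬ Gw w g)) w := fun w hw => by
    have hP := pr_Pw (pin_mem (ex := ex) (ey := ey) H.hp w)
    have h1 := H.crs w hw (ag a Gw w) (fun g => ag a Gw w g * D g) (fun g => ag_supp)
      fun g hg => ag_supp (left_ne_zero_of_mul hg)
    simp only [← sq] at h1
    rw [← nsq_eq_ex, ← hP.var_eq, ex_Ph (c := fun g => (ag a Gw w g * D g) ^ 2)
      fun g hg => by simp [ag_zero hg], ex_Ph (c := fun g => ag a Gw w g ^ 2 * D g)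
      fun g hg => by simp [ag_zero hg]] at h1
    have a1 : U ex ey p (fun g => (ag a Gw w g * D g) ^ 2) w ≤
        U ex ey p (fun g => (a g * D g) ^ 2) w := U_mono H.hp fun g _ => by
      rw [mul_pow, mul_pow]; exact mul_le_mul_of_nonneg_right (ag_sq g) (sq_nonneg _)
    have a2 : U ex ey p (fun g => ag a Gw w g ^ 2 * D g) w ≤ U ex ey p (fun g => a g ^ 2 * D g) w :=
      U_mono H.hp fun g _ => mul_le_mul_of_nonneg_right (ag_sq g) (H.hD g).1
    have a3 : U ex ey p (fun g => (a g * D g) ^ 2) w ≤ U ex ey p (fun g => a g ^ 2 * D g) w :=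
      U_mono H.hp fun g _ => sqD H.hD _ g
    have a4 := U_nn (ex := ex) (ey := ey) (w := w) H.hp n0
    have a5 := (abs_le_of_sq_le_sq' (h1.trans ((mul_le_mul (mul_le_mul_of_nonneg_left a2
      (sq_nonneg κ)) (a1.trans a3) (U_nn H.hp fun _ => sq_nonneg _) (by positivity)).trans_eq
      (by rw [mul_assoc, ← sq, ← mul_pow]))) (mul_nonneg H.κ0 a4)).2
    have a6 := hS.U_sq (ex := ex) (ey := ey) (w := w) (a := ab a Gw w) H.hp H.hD
    simp only [ab_sq] at a6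
    rw [split a D Gw w, funext (Ph_add _ _)]
    refine (var_add_le hP _ _ ht).trans ?_
    have a7 := mul_le_mul_of_nonneg_left a6 (by positivity : 0 ≤ 1 + 1 / t)
    nlinarith [mul_le_mul_of_nonneg_left (a1.trans a3) ht.le, mul_le_mul_of_nonneg_left a5 ht.le]
  refine (ex_mono_ae hν.nn key).trans ?_
  rw [ex_add, ex_add, ex_mul, ex_mul, κa]
  nlinarith [mul_le_mul_of_nonneg_left r (by positivity : 0 ≤ (1 + 1 / t) * n)]

/-! ### births and deaths -/

lemma gnz_nu (hp : ∀ s, 0 ≤ p s ∧ p s ≤ 1) (f : Finset (Lp T Λ) → Lp T Λ → ℝ) :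
    Op.ex (nu (qq ex ey p) u) (fun w => ∑ g ∈ w, f (w.erase g) g) =
      Op.ex (nu (qq ex ey p) u) fun w => ∑ g, u g * Up ex ey p w g * f w g := by
  rw [Op.ex, gnz]
  refine sum_congr rfl fun w _ => ?_
  rw [mul_sum, ← sum_add_sum_compl w, sum_eq_zero (s := w) fun g hg => by simp [Up, hg], zero_add]
  refine sum_congr rfl fun g hg => ?_
  by_cases h : qq ex ey p w = 0
  · have : qq ex ey p (insert g w) = 0 := by
      by_contra h'; exact (cpt_qq hp).ne_of_sub (subset_insert g w) h' h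
    simp [Gas.nu, gw, h, this]
  · rw [Gas.nu, Gas.nu, gw_insert (mem_compl.1 hg) h, Up, if_neg (mem_compl.1 hg), sh_qq h]; ring

/-- the response to a birth is a covariance. -/
lemma resp (hp : ∀ s, 0 ≤ p s ∧ p s ≤ 1) (hw : qq ex ey p w ≠ 0) (al : Lp T Λ → ℝ)
    (hc : ∀ g ∈ w, c g = 0) :
    ∑ g, c g * (Up ex ey p w g * U ex ey p al (insert g w)) =
      Op.ex (Pw (pin ex ey p w)) (fun ξ => Ph ex ey (off (· ∈ w) al) ξ * Ph ex ey c ξ) -
        U ex ey p (fun g => al g * c g) w := by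
  have hq := cpt_qq (ex := ex) (ey := ey) hp
  have e := sh_qq hw
  have e1 : ∀ ξ, Ph ex ey (off (· ∈ w) al) ξ * Ph ex ey c ξ = ∑ g, c g * ∑ g', al g' *
      ((if g ∈ w then 0 else if g ∈ L ex ey ξ then 1 else 0) *
        if g' ∈ w then 0 else if g' ∈ L ex ey ξ then 1 else 0) := fun ξ => by
    have : c = off (· ∈ w) c := by funext g; unfold off; split_ifs with h; exacts [hc g h, rfl]
    rw [Ph, Ph, Pc.sum_off_eq]
    conv_lhs => rw [this, Pc.sum_off_eq]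
    rw [mul_comm, sum_mul_sum]
    exact sum_congr rfl fun g _ => by rw [mul_sum]; exact sum_congr rfl fun g' _ => by ring
  simp only [e1]
  rw [ex_sum', U_sum hw, ← sum_sub_distrib]
  refine sum_congr rfl fun g _ => ?_
  rw [ex_mul, ex_sum']
  simp only [ex_mul, ← Pc.up2_eq' e]
  rw [mul_comm (al g), mul_assoc, ← mul_sub, ← up_qq hw]
  congr 1
  by_cases hg : g ∈ w
  · simp [up, Pc.up2, hg]
  by_cases h0 : qq ex ey p (insert g w) = 0
  · have z : ∀ g', qq ex ey p (w ∪ {g, g'}) = 0 := fun g' => by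
      by_contra h'
      exact hq.ne_of_sub (insert_subset (by simp) subset_union_left) h' h0
    have z1 : qq ex ey p (w ∪ {g}) = 0 := by simpa using z g
    simp only [up, Pc.up2, sh, z, z1, zero_div, ite_self, zero_mul, mul_zero, sum_const_zero,
      sub_zero]
  rw [U_eq h0, Phb, mul_sum, ← add_sum_erase _ _ (mem_univ g), ← add_sum_erase _ _ (mem_univ g)]
  have e2 : Pc.up2 (qq ex ey p) w g g = up (qq ex ey p) w g := by simp [up, Pc.up2]
  rw [e2, show up (qq ex ey p) (insert g w) g = 0 from if_pos (mem_insert_self _ _), mul_zero,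
    mul_zero, zero_add, add_sub_cancel_left]
  refine sum_congr rfl fun g' hg' => ?_
  by_cases h1 : g' ∈ w
  · simp [up, Pc.up2, h1]
  have e3 : insert g w ∪ {g'} = w ∪ {g, g'} := by ext; simp
  have e4 : w ∪ {g} = insert g w := by rw [union_comm, insert_eq]
  simp only [up, Pc.up2, hg, h1, mem_insert, ne_of_mem_erase hg', or_self, if_false, sh, e3, e4]
  field_simp

lemma cov_sq {Ω : Type} [Fintype Ω] [DecidableEq Ω] {μ : Ω → ℝ} (hμ : Pr μ) (f g : Ω → ℝ) :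
    (Op.ex μ (fun ω => f ω * g ω) - Op.ex μ f * Op.ex μ g) ^ 2 ≤ nsq μ f * nsq μ g := by
  have h := cs hμ.nn f fun ω => g ω - Op.ex μ g
  rw [ip_sub_right, ip_const, mul_comm (Op.ex μ g)] at h
  exact h.trans (mul_le_mul_of_nonneg_left (hμ.var_le g) (nsq_nn hμ.nn f))

/-- the good births. -/
lemma good (H : HA ex ey p u D Sa Gw κ ε) (hS : Sup u D n) (hw : nu (qq ex ey p) u w ≠ 0) :
    ∑ g, u g * Up ex ey p w g * (i1 (Gw w g) * (U ex ey p (fun g => a g * D g) (insert g w) -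
      U ex ey p (fun g => a g * D g) w) ^ 2) ≤ 2 * κ ^ 2 * U ex ey p (fun g => a g ^ 2 * D g) w +
      2 * (n + 1) ^ 2 * U ex ey p (fun g => a g ^ 2 * D g * i1 (¬ Gw w g)) w := by
  have hP := pr_Pw (pin_mem (ex := ex) (ey := ey) H.hp w)
  have hq := (nu_supp hw).1
  set F := U ex ey p fun g => a g * D g with hF
  set c := ag (fun g => u g * (F (insert g w) - F w)) Gw w with hc
  set X := ∑ g, u g * Up ex ey p w g * (i1 (Gw w g) * (F (insert g w) - F w) ^ 2) with hX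
  set N := U ex ey p (fun g => a g ^ 2 * D g) w
  set Nb := U ex ey p (fun g => a g ^ 2 * D g * i1 (¬ Gw w g)) w with hNb
  have c0 : ∀ g ∈ w, c g = 0 := fun g => ag_zero
  have N0 : 0 ≤ N := U_nn H.hp fun g => mul_nonneg (sq_nonneg _) (H.hD g).1
  have Nb0 : 0 ≤ Nb := U_nn H.hp fun g => mul_nonneg (mul_nonneg (sq_nonneg _) (H.hD g).1) (i1_nn _)
  have X0 : 0 ≤ X := sum_nonneg fun g _ => mul_nonneg (mul_nonneg (H.hu g).1 (Up_nn H.hp w g))
    (mul_nonneg (i1_nn _) (sq_nonneg _))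
  have cX : U ex ey p (fun g => c g ^ 2) w ≤ X := by
    rw [U_sum hq]
    refine sum_le_sum fun g _ => ?_
    by_cases h1 : g ∈ w
    · simp [Up, h1]
    by_cases h2 : Gw w g
    · simp only [hc, ag, h1, h2, not_false_eq_true, and_self, if_true, i1_pos]
      nlinarith [mul_nonneg (mul_nonneg (mul_nonneg (H.hu g).1 (sub_nonneg.2 (H.hu g).2))
        (Up_nn (ex := ex) (ey := ey) H.hp w g)) (sq_nonneg (F (insert g w) - F w))]
    · simp [hc, ag, h2, i1_neg]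
  have eX : X = ∑ g, c g * (Up ex ey p w g * F (insert g w)) - F w * U ex ey p c w := by
    rw [U_sum hq, mul_sum, ← sum_sub_distrib]
    refine sum_congr rfl fun g _ => ?_
    by_cases h1 : g ∈ w
    · simp [Up, h1]
    by_cases h2 : Gw w g
    · simp only [hc, ag, h1, h2, not_false_eq_true, and_self, if_true, i1_pos]; ring
    · simp [hc, ag, h2, i1_neg]
  have h1 := H.crs w hw (ag a Gw w) c (fun g => ag_supp) fun g => ag_supp
  set b := off (· ∈ w) fun g => ab a Gw w g * D g with hb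
  have h2 := cov_sq hP (Ph ex ey b) (Ph ex ey c)
  have a6 := hS.U_sq (ex := ex) (ey := ey) (w := w) (a := ab a Gw w) H.hp H.hD
  simp only [ab_sq] at a6
  have a7 : nsq (Pw (pin ex ey p w)) (Ph ex ey c) ≤ n * X := by
    refine le_trans ?_ (mul_le_mul_of_nonneg_left cX (Nat.cast_nonneg _))
    rw [← ex_Ph (c := fun g => c g ^ 2) fun g hg => by simp [c0 g hg], ← ex_mul]
    refine ex_mono hP.nn fun ξ => hS.sq (fun g hg => .inl fun h => hg ?_) ξ
    simp [hc, ag, h]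
  have h3 : U ex ey p (fun g => b g * c g) w ^ 2 ≤ Nb * X := by
    have := cs (μ := Up ex ey p w) (Up_nn H.hp w) b c
    simp only [ip, nsq, mul_comm (Up ex ey p w _), ← U_sum hq] at this
    refine this.trans (mul_le_mul (U_mono H.hp fun g hg => ?_) cX
      (U_nn H.hp fun _ => sq_nonneg _) Nb0)
    rw [hb, off, if_neg hg, ← ab_sq]; exact sqD H.hD _ g
  rw [ex_Ph (c := fun g => ag a Gw w g ^ 2 * D g) fun g hg => by simp [ag_zero hg],
    ex_Ph (c := fun g => c g ^ 2) fun g hg => by simp [c0 g hg],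
    ex_Ph (c := fun g => ag a Gw w g * D g * c g) fun g hg => by simp [c0 g hg]] at h1
  replace h1 := h1.trans (mul_le_mul (mul_le_mul_of_nonneg_left (U_mono H.hp (c' := fun g =>
    a g ^ 2 * D g) fun g _ => mul_le_mul_of_nonneg_right (ag_sq g) (H.hD g).1) (sq_nonneg κ)) cX
    (U_nn H.hp fun _ => sq_nonneg _) (by positivity))
  replace h2 := h2.trans (mul_le_mul a6 a7 (nsq_nn hP.nn _) (by positivity))
  have e1 : U ex ey p (fun g => a g * D g * c g) w = U ex ey p (fun g => ag a Gw w g * D g * c g) w +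
      U ex ey p (fun g => b g * c g) w := by
    simp only [U_sum hq, ← sum_add_distrib]
    refine sum_congr rfl fun g _ => ?_
    by_cases hg : g ∈ w
    · simp [c0 g hg]
    · have := congrFun (split a D Gw w) g
      rw [off, if_neg hg] at this
      rw [this]; ring
  have e2 : F w = Op.ex (Pw (pin ex ey p w)) (Ph ex ey fun g => ag a Gw w g * D g) +
      Op.ex (Pw (pin ex ey p w)) (Ph ex ey b) := by
    rw [hF, U, split a D Gw w, funext (Ph_add _ _), ex_add]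
  rw [e2, hF, resp H.hp hq _ c0, e1, ← ex_Ph c0, split a D Gw w, funext (Ph_add _ _)] at eX
  simp only [add_mul, ex_add] at eX
  have r1 := Real.sq_sqrt (mul_nonneg Nb0 X0)
  have r0 := Real.sqrt_nonneg (Nb * X)
  have b2 := abs_le_of_sq_le_sq' (b := n * Real.sqrt (Nb * X)) (h2.trans_eq (by rw [mul_pow, r1]; ring))
    (by positivity)
  have b3 := abs_le_of_sq_le_sq' (h3.trans_eq r1.symm) r0
  rw [← hb] at eX
  generalize (Op.ex (Pw (pin ex ey p w)) fun ξ => Ph ex ey b ξ * Ph ex ey c ξ) = x1 at *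
  generalize Op.ex (Pw (pin ex ey p w)) (Ph ex ey b) = x2 at *
  generalize Op.ex (Pw (pin ex ey p w)) (Ph ex ey c) = x3 at *
  generalize U ex ey p (fun g => b g * c g) w = x4 at *
  have b4 : (x1 - x2 * x3 - x4) ^ 2 ≤ (n + 1) ^ 2 * (Nb * X) := by
    rw [← r1, ← mul_pow]
    exact sq_le_sq' (by linarith [b2.1, b3.2]) (by linarith [b2.2, b3.1])
  rcases X0.eq_or_lt with h | h
  · rw [← h]; positivity
  refine le_of_mul_le_mul_right ?_ h
  generalize (Op.ex (Pw (pin ex ey p w)) fun ξ =>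
    Ph ex ey (fun g => ag a Gw w g * D g) ξ * Ph ex ey c ξ) = y1 at *
  generalize Op.ex (Pw (pin ex ey p w)) (Ph ex ey fun g => ag a Gw w g * D g) = y2 at *
  generalize U ex ey p (fun g => ag a Gw w g * D g * c g) w = y4 at *
  have e5 : X = (y1 - y2 * x3 - y4) + (x1 - x2 * x3 - x4) := by rw [eX]; ring
  nlinarith [sq_nonneg ((y1 - y2 * x3 - y4) - (x1 - x2 * x3 - x4))]

lemma Sup.F_sq (h : Sup u D n) (hp : ∀ s, 0 ≤ p s ∧ p s ≤ 1) (hD : ∀ g, 0 ≤ D g ∧ D g ≤ 1) :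
    U ex ey p (fun g => a g * D g) w ^ 2 ≤ n * U ex ey p (fun g => a g ^ 2 * D g) w :=
  ((pr_Pw (pin_mem hp w)).sq_ex_le _).trans (h.U_sq hp hD)

lemma U_i1 (c : Lp T Λ → ℝ) (P : Prop) :
    U ex ey p (fun g => c g * i1 P) w = i1 P * U ex ey p c w := by
  by_cases h : P
  · simp [i1_pos h]
  · simp [i1_neg h, U, Ph, off, Op.ex]

/-- mean square on the bad set. -/
lemma bad_sq (H : HA ex ey p u D Sa Gw κ ε) (hS : Sup u D n) (ha : ∀ g, a g ≠ 0 → Sa g)
    (hb : ∀ g, Sa g → Rare ex ey p u g Bad ε) :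
    Op.ex (nu (qq ex ey p) u) (fun w => i1 (Bad w) * U ex ey p (fun g => a g * D g) w ^ 2) ≤
      n * ε * Op.ex (nu (qq ex ey p) u) (U ex ey p fun g => a g ^ 2 * D g) := by
  have r := rare_sum (E := fun w _ => Bad w) (fun g => mul_nonneg (sq_nonneg (a g)) (H.hD g).1)
    fun g hg => hb g (ha g fun h => hg (by simp [h]))
  rw [mul_assoc]
  refine le_trans ?_ (mul_le_mul_of_nonneg_left r (Nat.cast_nonneg _))
  rw [← ex_mul]
  refine ex_mono (nu_nn (cpt_qq H.hp) fun g => (H.hu g).1) fun w => ?_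
  rw [U_i1, mul_left_comm]
  exact mul_le_mul_of_nonneg_left (hS.F_sq H.hp H.hD) (i1_nn _)

/-- **the birth-death form of the response.** -/
theorem dir_le (H : HA ex ey p u D Sa Gw κ ε) (hS : Sup u D n) (ha : ∀ g, a g ≠ 0 → Sa g)
    (hb : ∀ g, Sa g → Rare ex ey p u g Bad ε)
    (death : ∀ w, nu (qq ex ey p) u w ≠ 0 → ¬ Bad w → ∀ g ∈ w, Gw (w.erase g) g)
    (birth : ∀ w, nu (qq ex ey p) u w ≠ 0 → ¬ Bad w →
      ∑ g, u g * Up ex ey p w g * i1 (¬ Gw w g) ≤ ε) :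
    Dir (nu (qq ex ey p) u) (U ex ey p fun g => a g * D g) ≤ (2 * κ ^ 2 + 6 * (n + 1) ^ 2 * ε) *
      Op.ex (nu (qq ex ey p) u) (U ex ey p fun g => a g ^ 2 * D g) := by
  classical
  have hν := pr_nu (cpt_qq (ex := ex) (ey := ey) H.hp) fun g => (H.hu g).1
  have n0 := fun g => mul_nonneg (sq_nonneg (a g)) (H.hD g).1
  have r := rare_sum n0 fun g hg => H.rare g (ha g fun h => hg (by simp [h]))
  have r2 := bad_sq H hS ha hb
  set F := U ex ey p fun g => a g * D g with hF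
  have N0 := ex_nn hν.nn fun w => U_nn (ex := ex) (ey := ey) (w := w) H.hp n0
  have h1 : Op.ex (nu (qq ex ey p) u) (fun w => ∑ g ∈ w, i1 (Gw (w.erase g) g) *
      (F (insert g (w.erase g)) - F (w.erase g)) ^ 2) ≤ _ :=
    (gnz_nu H.hp fun w g => i1 (Gw w g) * (F (insert g w) - F w) ^ 2).trans_le
      (ex_mono_ae hν.nn fun w hw => good H hS hw)
  have h2 : Op.ex (nu (qq ex ey p) u) (fun w => ∑ g ∈ w, i1 (¬ Gw (w.erase g) g) *
      F (w.erase g) ^ 2) ≤ Op.ex (nu (qq ex ey p) u) fun w =>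
      ε * (n * U ex ey p (fun g => a g ^ 2 * D g) w) + n * (i1 (Bad w) * F w ^ 2) := by
    refine (gnz_nu H.hp fun w g => i1 (¬ Gw w g) * F w ^ 2).trans_le
      (ex_mono_ae hν.nn fun w hw => ?_)
    simp only [← mul_assoc, ← sum_mul]
    have f1 := hS.F_sq (ex := ex) (ey := ey) (a := a) (w := w) H.hp H.hD
    have f2 := mul_nonneg H.ε0 ((sq_nonneg _).trans f1)
    by_cases hB : Bad w
    · have : ∑ g, u g * Up ex ey p w g * i1 (¬ Gw w g) ≤ n := by
        have e : ∑ g, u g * Up ex ey p w g * i1 (¬ Gw w g) =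
          U ex ey p (fun g => u g * i1 (¬ Gw w g)) w := by
          rw [U_sum (nu_supp hw).1]; exact sum_congr rfl fun g _ => by ring
        rw [e, ← (pr_Pw (pin_mem (ex := ex) (ey := ey) H.hp w)).ex_const n]
        refine ex_mono (pr_Pw (pin_mem H.hp w)).nn fun ξ => ?_
        rw [Ph, ← sum_filter_ne_zero]
        refine (sum_le_card_nsmul _ _ 1 fun g _ => ?_).trans ?_
        · unfold off; split_ifs
          exacts [zero_le_one, mul_le_one₀ (H.hu g).2 (i1_nn _) (i1_le _)]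
        · rw [nsmul_one]
          refine Nat.cast_le.2 (hS.card ξ (filter_subset _ _) fun g hg => .inl fun h => ?_)
          exact (mem_filter.1 hg).2 (by simp [off, h])
      rw [i1_pos hB]
      nlinarith [mul_le_mul_of_nonneg_right this (sq_nonneg (F w))]
    · rw [i1_neg hB]
      nlinarith [mul_le_mul_of_nonneg_right (birth w hw hB) (sq_nonneg (F w)),
        mul_le_mul_of_nonneg_left f1 H.ε0]
  have h3 : Dir (nu (qq ex ey p) u) F ≤ Op.ex (nu (qq ex ey p) u) fun w =>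
      (∑ g ∈ w, i1 (Gw (w.erase g) g) * (F (insert g (w.erase g)) - F (w.erase g)) ^ 2) +
      (2 * ∑ g ∈ w, i1 (¬ Gw (w.erase g) g) * F (w.erase g) ^ 2) +
      2 * n * (i1 (Bad w) * F w ^ 2) := by
    refine ex_mono_ae hν.nn fun w hw => ?_
    have k : ∑ g ∈ w, i1 (¬ Gw (w.erase g) g) * F w ^ 2 ≤ n * (i1 (Bad w) * F w ^ 2) := by
      by_cases hB : Bad w
      · obtain ⟨ξ, -, hξ⟩ := qq_supp (nu_supp hw).1
        refine (sum_le_card_nsmul _ _ (F w ^ 2) fun g _ =>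
          mul_le_of_le_one_left (sq_nonneg _) (i1_le _)).trans ?_
        rw [i1_pos hB, one_mul, nsmul_eq_mul]
        refine mul_le_mul_of_nonneg_right ?_ (sq_nonneg _)
        exact_mod_cast hS.card ξ hξ fun g hg => .inl ((nu_supp hw).2 g hg)
      · rw [i1_neg hB, sum_eq_zero fun g hg => by
          rw [i1_neg (not_not.2 (death w hw hB g hg)), zero_mul]]
        simp
    refine le_trans ?_ (add_le_add le_rfl (by linarith : 2 * ∑ g ∈ w, i1 (¬ Gw (w.erase g) g) *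
      F w ^ 2 ≤ _))
    rw [mul_sum, mul_sum, ← sum_add_distrib, ← sum_add_distrib]
    refine sum_le_sum fun g hg => ?_
    rw [insert_erase hg]
    by_cases h : Gw (w.erase g) g
    · simp [i1_pos h, i1_neg (not_not.2 h)]
    · rw [i1_neg h, i1_pos h]; nlinarith [sq_nonneg (F w + F (w.erase g))]
  simp only [ex_add, ex_mul] at h1 h2 h3
  have n1 : (0 : ℝ) ≤ n := Nat.cast_nonneg _
  nlinarith [mul_le_mul_of_nonneg_left r2 n1, mul_le_mul_of_nonneg_left r (sq_nonneg (n + 1 : ℝ)),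
    mul_nonneg H.ε0 N0, mul_nonneg n1 (mul_nonneg H.ε0 N0)]

/-- **TKb** with a support bound. -/
theorem tkb {ws : Fin T → Fin T} {near : Λ → Λ → Prop} {Z : Λ → Finset Λ}
    {q δ C0 nk Nr : ℝ} {Bn N n1 n2 k0 Km : ℕ} (H : HA ex ey p u D Sa Gw κ ε)
    (K : HB ex ey p u D Sa Gw Bad ws near Z ε q δ C0 nk Nr Bn N n1 n2 k0 Km)
    (hS : Sup u D n) : TKb ex ey p u D Sa (κb n κ ε q δ C0 nk Nr Bn N n1 n2 k0 Km) :=
  fun a ha => by
  obtain ⟨I, _, m, x, v, m0, hm, dom, hv⟩ := K.lp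
  have hν := pr_nu (cpt_qq (ex := ex) (ey := ey) H.hp) fun g => (H.hu g).1
  have r2 := bad_sq H hS ha K.bad
  have r3 := dir_le H hS ha K.bad K.death K.birth
  have fib := blk_fib H K m0 hm dom ha
  have res : Op.ex (nu (qq ex ey p) u) (fun w => Nr * (ε + i1 (Bad w)) *
      U ex ey p (fun g => a g * D g) w ^ 2) ≤
      2 * Nr * n * ε * Op.ex (nu (qq ex ey p) u) (U ex ey p fun g => a g ^ 2 * D g) := by
    have h1 : Op.ex (nu (qq ex ey p) u) (fun w => U ex ey p (fun g => a g * D g) w ^ 2) ≤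
        n * Op.ex (nu (qq ex ey p) u) (U ex ey p fun g => a g ^ 2 * D g) := by
      rw [← ex_mul]; exact ex_mono hν.nn fun w => hS.F_sq H.hp H.hD
    simp only [mul_assoc, add_mul, ex_mul, ex_add]
    nlinarith [mul_le_mul_of_nonneg_left (add_le_add (mul_le_mul_of_nonneg_left h1 H.ε0) r2) K.Nr0]
  refine (hv _).trans ?_
  rw [κb]
  nlinarith [mul_le_mul_of_nonneg_left (add_le_add r3 fib) K.hC0]

end Crest.Agent.N337.TS

namespace Crest.Agent.N337.M

theorem tkaS : TkaS := fun _ _ _ _ _ _ _ _ _ _ _ _ _ _ _ S _ H ht h1 h2 => TS.tka H ⟨S, h2, h1⟩ ht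

theorem tkbS : TkbS :=
  fun _ _ _ _ _ _ _ _ _ _ _ _ _ _ _ _ _ _ _ _ _ _ _ _ _ _ _ _ _ S _ H K h1 h2 =>
    TS.tkb H K ⟨S, h2, h1⟩

end Crest.Agent.N337.M
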